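import Vale.Agent.P232.BandFree.Data

/-!
# P232 rigidity: a range of slice areas reaching beyond one half beats the tube strictly

The certificates of the band-free theorem compare with the tube through a rational upper bound
of `π`, so below `V = 1/π` they are strict.
-/

open MeasureTheory Set intervalIntegral
open scoped Real

noncomputable section

namespace Vale.Agent.P232.Rigid.Circle

open BandFree

/-- All affine calibrations of the range `[a, b]` bound `p` at volume `V`. -/
structure Wide (V a b p : ℝ) : Prop where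
  a0 : 0 ≤ a
  aV : a ≤ V
  hb : 1 / 2 ≤ b
  b1 : b ≤ 1
  Vpos : 0 < V
  Vhi : V ≤ 1 / piHi
  cal : ∀ u v : ℝ, (∀ x ∈ Icc a b, 0 ≤ u + v * x ∧ (u + v * x) ^ 2 ≤ mh x) →
    Real.sqrt π * (u + v * V) + (∫ x in a..b, H x (u + v * x)) ≤ p

theorem Wide.tri {V a b p : ℝ} (h : Wide V a b p) {Q : Fin 3 → Corner}
    {C : Fin 3 → ℝ} (T : Tri Q C) (l : Fin 3 → ℝ) (hl : ∀ i, 0 ≤ l i) (hl1 : ∑ i, l i = 1)
    (ea : ∑ i, l i * (Q i).a = a) (eb : ∑ i, l i * (Q i).b = b) :
    Real.sqrt (π * V) < p := by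
  have hpi : π < piHi := by unfold piHi; linarith [Real.pi_lt_d4]
  have hV12 : V < 1 / 2 := h.Vhi.trans_lt (by norm_num [piHi])
  set α := ∑ i, l i * (Q i).α
  set β := ∑ i, l i * (Q i).β
  set Cc := ∑ i, l i * C i
  set d := b - a
  have hab : a < b := h.aV.trans_lt (hV12.trans_le h.hb)
  have hd : 0 < d := sub_pos.2 hab
  set M : Corner := ⟨a, b, α, β⟩
  have hseg : ∀ t, M.seg t = ∑ i, l i • (Q i).seg t := fun t => by
    ext
    · simp [Corner.seg, M, ← ea, ← eb, Fin.sum_univ_three]; ring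
    · simp [Corner.seg, M, α, β, Fin.sum_univ_three]; ring
  have hmem : ∀ t ∈ Icc (0 : ℝ) 1, M.seg t ∈ dom := fun t ht => by
    rw [hseg]
    exact convex_dom.sum_mem (fun i _ => hl i) hl1 fun i _ => (T.valid i).mem ht
  have hα : 0 ≤ α := Finset.sum_nonneg fun i _ => mul_nonneg (hl i) (T.valid i).α0
  have hβ : 0 ≤ β := Finset.sum_nonneg fun i _ => mul_nonneg (hl i) (T.valid i).β0
  set u := α - a * ((β - α) / d)
  set v := (β - α) / d
  have hline : ∀ t, (M.seg t).1 = a + d * t ∧ (M.seg t).2 = u + v * (a + d * t) := fun t =>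
    ⟨by simp [Corner.seg, M, d]; ring, by simp [Corner.seg, M, u, v]; field_simp; ring⟩
  have hG : ∀ x ∈ Icc a b, 0 ≤ u + v * x ∧ (u + v * x) ^ 2 ≤ mh x := by
    intro x hx
    set t := (x - a) / d
    have ht : t ∈ Icc (0 : ℝ) 1 :=
      ⟨div_nonneg (by linarith [hx.1]) hd.le, (div_le_one hd).2 (by linarith [hx.2])⟩
    have ex : x = a + d * t := by simp only [t]; field_simp; ring
    refine ⟨?_, ?_⟩
    · have : u + v * x = (1 - t) * α + t * β := by
        simp only [u, v, t]; field_simp; ring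
      rw [this]
      exact add_nonneg (mul_nonneg (sub_nonneg.2 ht.2) hα) (mul_nonneg ht.1 hβ)
    · have := (hmem t ht).2
      rwa [(hline t).1, (hline t).2, ← ex] at this
  have hcal := h.cal u v hG
  have hCle : Cc ≤ M.C := by
    calc Cc ≤ ∑ i, l i * (Q i).C := Finset.sum_le_sum fun i _ =>
          mul_le_mul_of_nonneg_left (T.hC i) (hl i)
      _ = ∫ t in (0 : ℝ)..1, ∑ i, l i * H ((Q i).seg t).1 ((Q i).seg t).2 := by
          rw [intervalIntegral.integral_finsetSum fun i _ =>
            ((T.valid i).integrable le_rfl zero_le_one le_rfl).const_mul _]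
          simp [Corner.C, intervalIntegral.integral_const_mul]
      _ ≤ M.C := by
          have hMi : IntervalIntegrable (fun t => H (M.seg t).1 (M.seg t).2) volume 0 1 := by
            have := (integrable_H (u := u) (v := v) h.a0 hab.le h.b1).comp_add_left a
              |>.comp_mul_left (c := d)
            simpa [hline, hd.ne', d] using this
          refine integral_mono_on zero_le_one ?_ hMi fun t ht => ?_
          · have := IntervalIntegrable.sum (Finset.univ : Finset (Fin 3)) fun i _ =>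
              ((T.valid i).integrable le_rfl zero_le_one le_rfl).const_mul (l i)
            simpa [Finset.sum_fn] using this
          · rw [hseg t]
            simpa using concaveOn_H.le_map_sum (fun i _ => hl i) hl1
              fun i _ => (T.valid i).mem ht
  have hint : ∫ x in a..b, H x (u + v * x) = d * M.C := by
    have := smul_integral_comp_add_mul (a := (0 : ℝ)) (b := 1) (fun x => H x (u + v * x)) d a
    simp only [smul_eq_mul, mul_zero, add_zero, mul_one] at this
    rw [show a + d = b by ring] at this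
    rw [← this]
    simp [Corner.C, hline]
  set ℓ : ℝ → ℝ := fun W => sp * (α * (b - W) + β * (W - a)) + d ^ 2 * Cc
  have hp : ℓ V ≤ p * d := by
    have hVb : V ≤ b := hV12.le.trans h.hb
    have h1 : sp * (α * (b - V) + β * (V - a)) ≤ Real.sqrt π * (α * (b - V) + β * (V - a)) :=
      mul_le_mul_of_nonneg_right sp_le (add_nonneg (mul_nonneg hα (sub_nonneg.2 hVb))
        (mul_nonneg hβ (sub_nonneg.2 h.aV)))
    have h2 : Real.sqrt π * (α * (b - V) + β * (V - a)) = Real.sqrt π * (u + v * V) * d := by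
      simp only [u, v]; field_simp; simp only [d]; ring
    rw [hint] at hcal
    have h3 := mul_le_mul_of_nonneg_right hcal hd.le
    have h4 := mul_le_mul_of_nonneg_left hCle (sq_nonneg d)
    simp only [ℓ]
    nlinarith
  have hcert : ∀ W κ, Cert Q C W κ → κ * d ≤ ℓ W := by
    rintro W κ ⟨c0, c1, c2, c3, c4, c5, c6, c7, c8, c9⟩
    have := cubic_nonneg _ l hl c0 c1 c2 c3 c4 c5 c6 c7 c8 c9
    have e : ∑ i, ∑ j, ∑ k, l i * l j * l k * form Q C W κ i j k = ℓ W - κ * d := by
      have h1 : l 2 = 1 - l 0 - l 1 := by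
        simp only [Fin.sum_univ_three] at hl1; linarith
      simp only [form, ℓ, α, β, Cc, d, ← ea, ← eb, Fin.sum_univ_three, h1]
      ring
    linarith
  have hconv : ∀ W₀ W₁ t, ℓ ((1 - t) * W₀ + t * W₁) = (1 - t) * ℓ W₀ + t * ℓ W₁ :=
    fun W₀ W₁ t => by simp only [ℓ]; ring
  have hπV : π * V < piHi * V := mul_lt_mul_of_pos_right hpi h.Vpos
  rcases T.rest with ⟨θ, hθ, h0, hP⟩ | hside
  · have k0 := hcert _ _ h0
    have kP := hcert _ _ hP
    set t := V * piHi
    have ht0 : 0 ≤ t := mul_nonneg h.Vpos.le (by norm_num [piHi])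
    have ht1 : t ≤ 1 := by
      have := mul_le_mul_of_nonneg_right h.Vhi (show (0 : ℝ) ≤ piHi by norm_num [piHi])
      rwa [one_div_mul_cancel (by norm_num [piHi])] at this
    have eV : V = (1 - t) * 0 + t * (1 / piHi) := by simp [t, piHi]; ring
    have hmid : (θ / 2 + t / (2 * θ)) * d ≤ p * d := by
      refine le_trans ?_ hp
      rw [eV, hconv]
      have e : (θ / 2 + t / (2 * θ)) * d = (1 - t) * (θ / 2 * d) + t * ((θ + 1 / θ) / 2 * d) := by
        field_simp; ring
      rw [e]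
      exact add_le_add (mul_le_mul_of_nonneg_left k0 (sub_nonneg.2 ht1))
        (mul_le_mul_of_nonneg_left kP ht0)
    refine lt_of_lt_of_le ?_ (le_of_mul_le_mul_right hmid hd)
    calc Real.sqrt (π * V) < Real.sqrt t := Real.sqrt_lt_sqrt (mul_nonneg Real.pi_pos.le h.Vpos.le) (by linarith)
      _ ≤ θ / 2 + t / (2 * θ) := by
          rw [Real.sqrt_le_left (by positivity)]
          have e : 4 * ((θ / 2) * (t / (2 * θ))) = t := by field_simp; ring
          nlinarith [sq_nonneg (θ / 2 - t / (2 * θ))]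
  · have hsa : 1 ≤ sp * α := by
      calc (1 : ℝ) = ∑ i, l i * 1 := by simp [hl1]
        _ ≤ ∑ i, l i * (sp * (Q i).α) := Finset.sum_le_sum fun i _ =>
            mul_le_mul_of_nonneg_left (hside i).1 (hl i)
        _ = sp * α := by simp [α, Finset.mul_sum]; congr 1; ext i; ring
    have hC0 : 0 ≤ Cc := Finset.sum_nonneg fun i _ => mul_nonneg (hl i) (hside i).2
    have ka : 1 * d ≤ ℓ a := by
      simp only [ℓ, sub_self, mul_zero, add_zero]
      nlinarith [mul_le_mul_of_nonneg_right hsa hd.le, mul_nonneg (sq_nonneg d) hC0]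
    have kh := hcert _ _ T.half
    set t := (V - a) / (1 / 2 - a)
    have ha2 : 0 < 1 / 2 - a := by linarith [h.aV]
    have ht0 : 0 ≤ t := div_nonneg (sub_nonneg.2 h.aV) ha2.le
    have ht1 : t ≤ 1 := (div_le_one ha2).2 (by linarith)
    have eV : V = (1 - t) * a + t * (1 / 2) := by
      have : t * (1 / 2 - a) = V - a := div_mul_cancel₀ _ ha2.ne'
      linarith
    have hmid : 1 * d ≤ p * d := by
      refine le_trans ?_ hp
      rw [eV, hconv]
      nlinarith [mul_le_mul_of_nonneg_left ka (sub_nonneg.2 ht1),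
        mul_le_mul_of_nonneg_left kh ht0]
    refine lt_of_lt_of_le ?_ (le_of_mul_le_mul_right hmid hd)
    rw [Real.sqrt_lt' one_pos]
    have := mul_le_mul_of_nonneg_right h.Vhi (show (0 : ℝ) ≤ piHi by norm_num [piHi])
    rw [one_div_mul_cancel (by norm_num [piHi])] at this
    linarith

theorem Wide.box {V a b p : ℝ} (h : Wide V a b p) {a₀ a₁ b₀ b₁ : ℝ}
    (ha : a ∈ Icc a₀ a₁) (hb : b ∈ Icc b₀ b₁) (hlta : a₀ < a₁) (hltb : b₀ < b₁)
    {Q R : Fin 3 → Corner} {C D : Fin 3 → ℝ}
    (hQ : Tri Q C) (hR : Tri R D)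
    (hQa : (Q 0).a = a₀ ∧ (Q 1).a = a₁ ∧ (Q 2).a = a₀)
    (hQb : (Q 0).b = b₀ ∧ (Q 1).b = b₀ ∧ (Q 2).b = b₁)
    (hRa : (R 0).a = a₁ ∧ (R 1).a = a₀ ∧ (R 2).a = a₁)
    (hRb : (R 0).b = b₁ ∧ (R 1).b = b₁ ∧ (R 2).b = b₀) :
    Real.sqrt (π * V) < p := by
  set u := (a - a₀) / (a₁ - a₀)
  set v := (b - b₀) / (b₁ - b₀)
  have hu : u ∈ Icc (0 : ℝ) 1 :=
    ⟨div_nonneg (by linarith [ha.1]) (by linarith),
      (div_le_one (by linarith)).2 (by linarith [ha.2])⟩
  have hv : v ∈ Icc (0 : ℝ) 1 :=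
    ⟨div_nonneg (by linarith [hb.1]) (by linarith),
      (div_le_one (by linarith)).2 (by linarith [hb.2])⟩
  have eu : a = a₀ + u * (a₁ - a₀) := by
    simp only [u]; rw [div_mul_cancel₀ _ (sub_pos.2 hlta).ne']; ring
  have ev : b = b₀ + v * (b₁ - b₀) := by
    simp only [v]; rw [div_mul_cancel₀ _ (sub_pos.2 hltb).ne']; ring
  rcases le_total (u + v) 1 with huv | huv
  · refine h.tri hQ ![1 - u - v, u, v] ?_ (by simp [Fin.sum_univ_three]; ring) ?_ ?_
    · intro i; fin_cases i <;> simp [hu.1, hv.1]; linarith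
    · simp [Fin.sum_univ_three, hQa.1, hQa.2.1, hQa.2.2]; rw [eu]; ring
    · simp [Fin.sum_univ_three, hQb.1, hQb.2.1, hQb.2.2]; rw [ev]; ring
  · refine h.tri hR ![u + v - 1, 1 - u, 1 - v] ?_ (by simp [Fin.sum_univ_three]) ?_ ?_
    · intro i; fin_cases i <;> simp [hu.2, hv.2]; linarith
    · simp [Fin.sum_univ_three, hRa.1, hRa.2.1, hRa.2.2]; rw [eu]; ring
    · simp [Fin.sum_univ_three, hRb.1, hRb.2.1, hRb.2.2]; rw [ev]; ring

open Data in
/-- The certificates, with the strict conclusion. -/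
theorem Wide.lt {V a b p : ℝ} (h : Wide V a b p) (ha4 : a ≤ 1 / 4) :
    Real.sqrt (π * V) < p := by
  have h0 := h.a0
  have hb := h.hb
  have hb1 := h.b1
  rcases le_total a (1 / 9) with h1 | h1
  · rcases le_total b (3 / 5) with h2 | h2
    · rcases le_total a (1 / 36) with h3 | h3
      · rcases le_total b (21 / 40) with h4 | h4
        · exact h.box ⟨h0, h3⟩ ⟨hb, h4⟩ (by norm_num) (by norm_num) t0 t1
            (by simp [q0, q1, q2]) (by simp [q0, q1, q2]) (by simp [q1, q2, q3]) (by simp [q1, q2, q3])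
        · exact h.box ⟨h0, h3⟩ ⟨h4, h2⟩ (by norm_num) (by norm_num) t2 t3
            (by simp [q2, q3, q4]) (by simp [q2, q3, q4]) (by simp [q3, q4, q5]) (by simp [q3, q4, q5])
      · exact h.box ⟨h3, h1⟩ ⟨hb, h2⟩ (by norm_num) (by norm_num) t4 t5
          (by simp [q1, q5, q6]) (by simp [q1, q5, q6]) (by simp [q5, q6, q7]) (by simp [q5, q6, q7])
    rcases le_total b (29 / 40) with h4 | h4
    · rcases le_total a (1 / 36) with h3 | h3
      · exact h.box ⟨h0, h3⟩ ⟨h2, h4⟩ (by norm_num) (by norm_num) t6 t7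
          (by simp [q4, q5, q8]) (by simp [q4, q5, q8]) (by simp [q5, q8, q9]) (by simp [q5, q8, q9])
      · exact h.box ⟨h3, h1⟩ ⟨h2, h4⟩ (by norm_num) (by norm_num) t8 t9
          (by simp [q5, q7, q9]) (by simp [q5, q7, q9]) (by simp [q7, q9, q10])
          (by simp [q7, q9, q10])
    rcases le_total b (33 / 40) with h5 | h5
    · exact h.box ⟨h0, h1⟩ ⟨h4, h5⟩ (by norm_num) (by norm_num) t10 t11
        (by simp [q8, q10, q11]) (by simp [q8, q10, q11]) (by simp [q10, q11, q12])
        (by simp [q10, q11, q12])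
    rcases le_total b (37 / 40) with h6 | h6
    · exact h.box ⟨h0, h1⟩ ⟨h5, h6⟩ (by norm_num) (by norm_num) t12 t13
        (by simp [q11, q12, q13]) (by simp [q11, q12, q13]) (by simp [q12, q13, q14])
        (by simp [q12, q13, q14])
    · exact h.box ⟨h0, h1⟩ ⟨h6, hb1⟩ (by norm_num) (by norm_num) t14 t15
        (by simp [q13, q14, q15]) (by simp [q13, q14, q15]) (by simp [q14, q15, q16])
        (by simp [q14, q15, q16])
  rcases le_total b (3 / 4) with h3 | h3
  · rcases le_total b (3 / 5) with h5 | h5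
    · exact h.box ⟨h1, ha4⟩ ⟨hb, h5⟩ (by norm_num) (by norm_num) t16 t17
        (by simp [q6, q7, q17]) (by simp [q6, q7, q17]) (by simp [q7, q17, q18])
        (by simp [q7, q17, q18])
    · exact h.box ⟨h1, ha4⟩ ⟨h5, h3⟩ (by norm_num) (by norm_num) t18 t19
        (by simp [q7, q18, q19]) (by simp [q7, q18, q19]) (by simp [q18, q19, q20])
        (by simp [q18, q19, q20])
  · exact h.box ⟨h1, ha4.trans (show (1 / 4 : ℝ) ≤ 8 / 25 by norm_num)⟩ ⟨h3, hb1⟩ (by norm_num)
      (by norm_num) t20 t21 (by simp [q16, q19, q21]) (by simp [q16, q19, q21])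
      (by simp [q16, q21, q22]) (by simp [q16, q21, q22])

end Vale.Agent.P232.Rigid.Circle
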