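import Vale.Agent.P232.Rigid.Circle.Side
import Vale.Agent.P232.Rigid.Circle.Wide

/-!
# P232 rigidity: the marginals of a ball
-/

open MeasureTheory Set Filter intervalIntegral
open scoped Topology Interval NNReal Real

noncomputable section

namespace Vale.Agent.P232.Rigid.Circle

open BandFree

theorem shapeLen_three (x : ℝ) : shapeLen 3 x = 2 * Real.sqrt (π * mh x) := by
  simp [shapeLen, mh]

theorem shapePerimeter_three (V : ℝ) :
    shapePerimeter 3 V = (36 * π) ^ ((1 : ℝ) / 3) * V ^ ((2 : ℝ) / 3) := by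
  simp [shapePerimeter]

theorem shapeMarginal_three (R t : ℝ) :
    shapeMarginal 3 R t = π * max 0 (R ^ 2 - intDist t ^ 2) := by simp [shapeMarginal]

theorem shapeRadius_three (V : ℝ) :
    shapeRadius 3 V = (3 * V / (4 * π)) ^ ((1 : ℝ) / 3) := by simp [shapeRadius]

/-- Affine calibrations of the essential range. -/
theorem affine_bound {A : ℝ → ℝ} {P : ℝ} (hm : Marg A (fun t => shapeLen 3 (A t)) P)
    (h01 : ∀ t, A t ∈ Icc (0 : ℝ) 1) {a b : ℝ} (hR : EssRange A a b) (ha : 0 ≤ a) (hab : a ≤ b)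
    (hb : b ≤ 1) (u v : ℝ) (hG : ∀ x ∈ Icc a b, 0 ≤ u + v * x ∧ (u + v * x) ^ 2 ≤ mh x) :
    Real.sqrt π * (u + v * ∫ z in (0 : ℝ)..1, A z) + (∫ x in a..b, H x (u + v * x)) ≤ P / 2 := by
  refine le_of_forall_pos_le_add fun δ hδ => ?_
  set r := Real.sqrt π
  have hr : 0 < r := Real.sqrt_pos.2 Real.pi_pos
  set η := δ / (r + 1)
  have hη : 0 < η := by positivity
  set g : ℝ → ℝ := fun x => max 0 (u + v * x)
  set R : ℝ → ℝ := fun x => Real.sqrt (max 0 (mh x) + η ^ 2) with hRdef
  set c : ℝ → ℝ := fun x => min 1 (g x / R x) with hcdef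
  set s : ℝ → ℝ := fun x => Real.sqrt (1 - c x ^ 2) with hsdef
  have hne : ∀ x, 0 < R x := fun x => Real.sqrt_pos.2 (by positivity)
  have hRc : Continuous R := by simp only [R, mh]; fun_prop
  have hc : Continuous c :=
    continuous_const.min (Continuous.div (by fun_prop) hRc fun x => (hne x).ne')
  have hc0 : ∀ x, 0 ≤ c x := fun x => le_min zero_le_one (div_nonneg (le_max_left _ _) (hne x).le)
  have hc1 : ∀ x, c x ≤ 1 := fun x => min_le_left _ _
  have hcs : ∀ x, c x ^ 2 + s x ^ 2 ≤ 1 := fun x => by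
    have : 0 ≤ 1 - c x ^ 2 := sub_nonneg.2 (pow_le_one₀ (hc0 x) (hc1 x))
    simp [s, Real.sq_sqrt this]
  have hpt : ∀ x ∈ Icc a b,
      2 * r * (u + v * x) - 2 * r * η ≤ c x * shapeLen 3 x ∧ H x (u + v * x) ≤ s x := by
    intro x hx
    obtain ⟨h2, h3⟩ := hG x hx
    have hm0 : 0 ≤ mh x := mh_nonneg ⟨ha.trans hx.1, hx.2.trans hb⟩
    set q := Real.sqrt (mh x)
    have hq : q ^ 2 = mh x := Real.sq_sqrt hm0
    have hR2 : R x ^ 2 = mh x + η ^ 2 := by
      rw [Real.sq_sqrt (by positivity), max_eq_right hm0]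
    have hq0 : 0 ≤ q := Real.sqrt_nonneg _
    have hqR : q ≤ R x := by nlinarith [hne x]
    have hRq : R x ≤ q + η := by nlinarith [hne x]
    have hgq : u + v * x ≤ q := (abs_le_of_sq_le_sq' (by rwa [hq]) hq0).2
    have hce : c x = (u + v * x) / R x := by
      simp only [c, g, max_eq_right h2]
      exact min_eq_right ((div_le_one (hne x)).2 (hgq.trans hqR))
    constructor
    · rw [shapeLen_three, Real.sqrt_mul Real.pi_pos.le, hce,
        show (u + v * x) / R x * (2 * (r * q)) = 2 * r * ((u + v * x) * q / R x) by ring, ← mul_sub]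
      refine mul_le_mul_of_nonneg_left ?_ (by positivity)
      rw [le_div_iff₀ (hne x)]
      nlinarith [mul_le_mul_of_nonneg_left hRq h2,
        mul_le_mul_of_nonneg_left (hgq.trans hqR) hη.le]
    · refine Real.sqrt_le_sqrt (sub_le_sub_left ?_ 1)
      rw [hce, div_pow, hR2]
      rcases hm0.eq_or_lt with h | h
      · have : u + v * x = 0 := by nlinarith
        simp [this]
      · exact div_le_div_of_nonneg_left (sq_nonneg _) h (by nlinarith)
  have hi : IntervalIntegrable A volume 0 1 := hm.hA.intervalIntegrable 0 1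
  have h1 : 2 * r * (u + v * ∫ z in (0 : ℝ)..1, A z) - 2 * r * η ≤
      ∫ z in (0 : ℝ)..1, c (A z) * shapeLen 3 (A z) := by
    have hl : IntervalIntegrable (fun z => 2 * r * (u + v * A z) - 2 * r * η) volume 0 1 :=
      (((intervalIntegrable_const (c := u)).add (hi.const_mul v)).const_mul _).sub
        intervalIntegrable_const
    have hrr : IntervalIntegrable (fun z => c (A z) * shapeLen 3 (A z)) volume 0 1 := by
      rw [intervalIntegrable_iff]
      refine IntegrableOn.of_bound measure_Ioc_lt_top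
        ((hc.measurable.comp hm.hA.meas).mul hm.hΛ.meas).aestronglyMeasurable 4
        (Eventually.of_forall fun z => ?_)
      rw [Real.norm_of_nonneg (mul_nonneg (hc0 _) (shapeLen_nonneg _ _))]
      exact (mul_le_of_le_one_left (shapeLen_nonneg _ _) (hc1 _)).trans (shapeLen_le 3 (h01 z))
    refine le_trans (le_of_eq ?_)
      (integral_mono_ae zero_le_one hl hrr (hR.mem.mono fun z hz => (hpt _ hz).1))
    rw [intervalIntegral.integral_sub _ intervalIntegrable_const, intervalIntegral.integral_const_mul,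
      intervalIntegral.integral_add intervalIntegrable_const (hi.const_mul v),
      intervalIntegral.integral_const_mul]
    · simp
    · exact ((intervalIntegrable_const (c := u)).add (hi.const_mul v)).const_mul _
  have h2 : ∫ x in a..b, H x (u + v * x) ≤ ∫ x in a..b, s x :=
    integral_mono_on hab (integrable_H ha hab hb)
      ((show Continuous s by fun_prop).intervalIntegrable _ _) fun x hx => (hpt x hx).2
  have key := hm.valueRange hR hc (by fun_prop) hc0 (fun x => Real.sqrt_nonneg _) hcs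
  have h3 : r * η ≤ δ := by
    have : (r + 1) * η = δ := by simp only [η]; field_simp
    nlinarith
  linarith

/-- The constants of a ball that attains the candidate. -/
theorem ball_consts {V : ℝ} (hV : 0 < V) (hP : shapePerimeter 3 V = candidate V) :
    0 < shapeRadius 3 V ∧ 4 * π * shapeRadius 3 V ^ 3 = 3 * V ∧
      candidate V = 4 * (π * shapeRadius 3 V ^ 2) ∧ candidate V ≤ 2 * Real.sqrt (π * V) ∧
      shapeRadius 3 V ≤ 1 / 3 ∧ 81 * V ≤ 4 * π := by
  set P := candidate V with hPdef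
  set R := shapeRadius 3 V with hRdef
  rw [shapeRadius_three] at hRdef
  have hR0 : 0 < R := hRdef ▸ Real.rpow_pos_of_pos (by positivity) _
  have hR3 : 4 * π * R ^ 3 = 3 * V := by
    rw [hRdef, ← Real.rpow_natCast (_ ^ ((1 : ℝ) / 3)) 3, ← Real.rpow_mul (by positivity)]
    norm_num
    field_simp
  have hPb : P = 4 * (π * R ^ 2) := by
    rw [← hP, shapePerimeter_three]
    refine (pow_left_inj₀ (n := 3) (by positivity) (by positivity) three_ne_zero).1 ?_
    rw [mul_pow, ← Real.rpow_natCast ((36 * π) ^ ((1 : ℝ) / 3)) 3,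
      ← Real.rpow_natCast (V ^ ((2 : ℝ) / 3)) 3, ← Real.rpow_mul (by positivity),
      ← Real.rpow_mul hV.le]
    norm_num
    rw [show V = 4 * π * R ^ 3 / 3 by linarith]; ring
  have hPt : P ≤ 2 * Real.sqrt (π * V) := by
    have hv : min V (1 - V) ≤ V := min_le_left _ _
    refine ((min_le_left _ _).trans (min_le_right _ _)).trans ?_
    gcongr
  have hR13 : R ≤ 1 / 3 := by
    have h1 := pow_le_pow_left₀ (by positivity) (hPb ▸ hPt) 2
    simp only [mul_pow, Real.sq_sqrt (show 0 ≤ π * V by positivity)] at h1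
    have hV' : V = 4 * π * R ^ 3 / 3 := by linarith
    rw [hV'] at h1
    have hpos : 0 < π ^ 2 * R ^ 3 := by positivity
    by_contra hcon
    nlinarith [mul_lt_mul_of_pos_left (not_le.1 hcon) hpos]
  have hV4 : 81 * V ≤ 4 * π := by
    have := pow_le_pow_left₀ hR0.le hR13 3
    nlinarith [mul_le_mul_of_nonneg_left this (show 0 ≤ 4 * π by positivity)]
  exact ⟨hR0, hR3, hPb, hPt, hR13, hV4⟩

/-- The chord bound is tight only at the ball, or for a constant marginal. -/
theorem chord_split {V x y R : ℝ} (hV : 0 < V) (hR : 0 < R) (hR13 : R ≤ 1 / 3)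
    (hR3 : 4 * π * R ^ 3 = 3 * V) (hx : 0 ≤ x) (hy : 0 < y)
    (htube : 2 * π * R ^ 2 ≤ Real.sqrt (π * V))
    (h : Real.sqrt π * V / (x + y) + 2 / 3 * (x + y) ^ 2 +
      x * y * (Real.sqrt π / (x + y) - 8 / 3) ≤ 2 * π * R ^ 2) :
    (x = 0 ∧ y = Real.sqrt π * R) ∨ x = y := by
  set r := Real.sqrt π
  have hr : r ^ 2 = π := Real.sq_sqrt Real.pi_pos.le
  have hr0 : 0 < r := Real.sqrt_pos.2 Real.pi_pos
  have hS : 0 < x + y := by linarith
  set q := r / (x + y) - 8 / 3
  set base := r * V / (x + y) + 2 / 3 * (x + y) ^ 2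
  set Y := r * R with hY
  have hY0 : 0 < Y := mul_pos hr0 hR
  have hVY : r * V = 4 / 3 * Y ^ 3 := by
    rw [hY, mul_pow, show r ^ 3 = r * π by rw [← hr]; ring]; linear_combination (-r / 3) * hR3
  have hPY : 2 * π * R ^ 2 = 2 * Y ^ 2 := by rw [hY, mul_pow, hr]; ring
  rcases le_or_gt 0 q with hq | hq
  · left
    have hxyq : 0 ≤ x * y * q := mul_nonneg (mul_nonneg hx hy.le) hq
    have hbase : base ≤ 2 * Y ^ 2 := by linarith
    have e : base - 2 * Y ^ 2 = 2 / 3 * ((x + y - Y) ^ 2 * (x + y + 2 * Y)) / (x + y) := by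
      simp only [base]; rw [hVY]; field_simp; ring
    have hSY : x + y = Y := by
      have h1 : 2 / 3 * ((x + y - Y) ^ 2 * (x + y + 2 * Y)) / (x + y) ≤ 0 := by linarith
      rw [div_le_iff₀ hS, zero_mul] at h1
      by_contra hne
      have := mul_pos (pow_two_pos_of_ne_zero (sub_ne_zero.2 hne))
        (show 0 < x + y + 2 * Y by positivity)
      linarith
    have hzero : base = 2 * Y ^ 2 := by
      have : base - 2 * Y ^ 2 = 0 := by rw [e, hSY]; ring
      linarith
    have hq' : 0 < q := by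
      simp only [q, hSY, hY, sub_pos, div_mul_eq_div_div, div_self hr0.ne']
      rw [lt_div_iff₀ hR]; linarith
    have hx0 : x = 0 := by
      by_contra hne
      have : 0 < x * y * q := mul_pos (mul_pos (lt_of_le_of_ne hx (Ne.symm hne)) hy) hq'
      linarith
    exact ⟨hx0, by rw [hx0, zero_add] at hSY; exact hSY⟩
  · right
    have h1 : Real.sqrt (π * V) ≤ base + (x + y) ^ 2 / 4 * q := by
      calc Real.sqrt (π * V) ≤ r * (V / (x + y) + (x + y) / 4) := by
            rw [Real.sqrt_mul Real.pi_pos.le]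
            refine mul_le_mul_of_nonneg_left ?_ hr0.le
            rw [div_add_div _ _ hS.ne' four_ne_zero, le_div_iff₀ (by positivity)]
            nlinarith [Real.sq_sqrt hV.le, sq_nonneg (2 * Real.sqrt V - (x + y))]
        _ = _ := by simp only [base, q]; field_simp; ring
    by_contra hne
    nlinarith [mul_pos (pow_two_pos_of_ne_zero (sub_ne_zero.2 hne)) (neg_pos.2 hq)]

/-- The range of the marginal of a ball is `[0, π R²]`. -/
theorem ball_range {V : ℝ} (hV : 0 < V) (hP : shapePerimeter 3 V = candidate V) {A : ℝ → ℝ}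
    (h : SideData 3 V A) {a b : ℝ} (hR : EssRange A a b) :
    a = 0 ∧ b = π * shapeRadius 3 V ^ 2 ∧ b ≤ 1 / 2 ∧ shapeRadius 3 V ≤ 1 / 2 ∧
      0 < shapeRadius 3 V ∧ 4 * π * shapeRadius 3 V ^ 3 = 3 * V ∧
      candidate V = 4 * (π * shapeRadius 3 V ^ 2) := by
  set P := candidate V with hPdef
  have hm : Marg A (fun t => shapeLen 3 (A t)) P := marg_of_side h
  obtain ⟨ha0, haV, hVb, hb1⟩ := hR.bounds h
  obtain ⟨hR0, hR3, hPb, hPt, hR13, hV4⟩ := ball_consts hV hP
  set R := shapeRadius 3 V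
  have hπ4 := Real.pi_lt_d4
  have hcal := affine_bound hm h.mem hR ha0 (haV.trans hVb) hb1
  rw [h.mass] at hcal
  have hhalf : P / 2 ≤ Real.sqrt (π * V) := by linarith
  -- no range beyond one half
  have hb2 : b ≤ 1 / 2 := by
    by_contra hcon
    have hw : Wide V a b (P / 2) := ⟨ha0, haV, (not_le.1 hcon).le, hb1, hV,
      by rw [le_div_iff₀ (by norm_num [piHi])]; simp only [piHi]; nlinarith, hcal⟩
    exact absurd (hw.lt (by linarith)) (not_lt.2 hhalf)
  set x := Real.sqrt a with hxdef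
  set y := Real.sqrt b with hydef
  have hxa : x ^ 2 = a := Real.sq_sqrt ha0
  have hyb : y ^ 2 = b := Real.sq_sqrt (ha0.trans (haV.trans hVb))
  have hx0 : 0 ≤ x := Real.sqrt_nonneg _
  have hb0 : 0 < b := hV.trans_le hVb
  have hy0 : 0 < y := Real.sqrt_pos.2 hb0
  have hxy : x ≤ y := Real.sqrt_le_sqrt (haV.trans hVb)
  have hS : 0 < x + y := by linarith
  have hm' : ∀ t ∈ Icc a b, mh t = t := fun t ht => min_eq_left (by linarith [ht.2])
  have hG : ∀ t ∈ Icc a b,
      0 ≤ x * y / (x + y) + 1 / (x + y) * t ∧ (x * y / (x + y) + 1 / (x + y) * t) ^ 2 ≤ mh t := by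
    intro t ht
    have ht0 : 0 ≤ t := ha0.trans ht.1
    refine ⟨by positivity, ?_⟩
    rw [hm' t ht, show x * y / (x + y) + 1 / (x + y) * t = (x * y + t) / (x + y) by ring, div_pow,
      div_le_iff₀ (by positivity)]
    nlinarith [mul_nonneg (sub_nonneg.2 ht.1) (sub_nonneg.2 ht.2)]
  have hc := hcal _ _ hG
  have hI : 2 / 3 * (y - x) ^ 2 ≤ ∫ t in a..b, H t (x * y / (x + y) + 1 / (x + y) * t) :=
    chord_gain ha0 (haV.trans hVb) hb2 hb0
  have hp : Real.sqrt π * V / (x + y) + 2 / 3 * (x + y) ^ 2 +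
      x * y * (Real.sqrt π / (x + y) - 8 / 3) ≤ 2 * π * R ^ 2 := by
    refine le_trans (le_trans (le_of_eq ?_) ((add_le_add_right hI _).trans hc)) (by linarith)
    field_simp
    ring
  rcases chord_split hV hR0 hR13 hR3 hx0 hy0 (by linarith) hp with ⟨hx, hy⟩ | hxy'
  · exact ⟨by rw [← hxa, hx]; ring, by rw [← hyb, hy, mul_pow, Real.sq_sqrt Real.pi_pos.le], hb2,
      by linarith, hR0, hR3, hPb⟩
  · exfalso
    have hab : a = b := by rw [← hxa, ← hyb, hxy']
    have hAV : ∀ᵐ z, A z = V := hR.mem.mono fun z hz => le_antisymm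
      (hz.2.trans (hab ▸ haV)) (hVb.trans (hab ▸ hz.1))
    refine not_const h hV ?_
    rw [intervalIntegral.integral_congr_ae (g := fun _ => shapeLen 3 V)
      (hAV.mono fun z hz _ => by rw [hz]), intervalIntegral.integral_const, sub_zero, one_smul,
      shapeLen_three, hm' V ⟨haV, hVb⟩]
    exact hPt

theorem ball_profile {V : ℝ} (hV : 0 < V) (hP : shapePerimeter 3 V = candidate V) {A : ℝ → ℝ}
    (h : SideData 3 V A) :
    ∃ c : ℝ, ∀ᵐ t : ℝ, A t = shapeMarginal 3 (shapeRadius 3 V) (t - c) := by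
  have hm : Marg A (fun t => shapeLen 3 (A t)) (candidate V) := marg_of_side h
  obtain ⟨a, b, hR⟩ := exists_essRange hm.hA
  obtain ⟨ha, hbR, hb2, hR12, hR0, hR3, hPb⟩ := ball_range hV hP h hR
  set R := shapeRadius 3 V
  subst ha
  have hb : 0 < b := hV.trans_le (hR.bounds h).2.2.1
  set y₀ := Real.sqrt b with hy₀
  have hy0 : 0 < y₀ := Real.sqrt_pos.2 hb
  set k : ℝ → ℝ := fun y => max 0 (min 1 (y / b))
  set c : ℝ → ℝ := fun y => Real.sqrt (k y)
  set s : ℝ → ℝ := fun y => Real.sqrt (1 - k y)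
  have hk0 : ∀ y, 0 ≤ k y := fun y => le_max_left _ _
  have hk1 : ∀ y, k y ≤ 1 := fun y => max_le zero_le_one (min_le_left _ _)
  have hkeq : ∀ y ∈ Icc 0 b, k y = y / b := fun y hy => by
    simp [k, (div_le_one hb).2 hy.2, div_nonneg hy.1 hb.le]
  have hc : Continuous c := by fun_prop
  have hcs : ∀ y, c y ^ 2 + s y ^ 2 ≤ 1 := fun y => by
    simp [c, s, Real.sq_sqrt (hk0 y), Real.sq_sqrt (sub_nonneg.2 (hk1 y))]
  have hcL : ∀ y ∈ Icc 0 b, c y * shapeLen 3 y = 2 * Real.sqrt π / y₀ * y := fun y hy => by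
    simp only [c, hkeq y hy, shapeLen_three, mh, min_eq_left (show y ≤ 1 - y by linarith [hy.2]),
      Real.sqrt_div' y hb.le, Real.sqrt_mul Real.pi_pos.le, ← hy₀]
    field_simp
    rw [Real.sq_sqrt hy.1]
  have hI : ∫ z in (0 : ℝ)..1, c (A z) * shapeLen 3 (A z) = 2 * Real.sqrt π / y₀ * V := by
    rw [← h.mass, ← intervalIntegral.integral_const_mul]
    exact intervalIntegral.integral_congr_ae (hR.mem.mono fun z hz _ => hcL _ hz)
  have hS : 2 / 3 * b ≤ ∫ y in (0 : ℝ)..b, s y := by
    have h1 := chord_gain (a := 0) le_rfl hb.le hb2 hb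
    simp only [Real.sqrt_zero, sub_zero, zero_mul, zero_div, zero_add, ← hy₀] at h1
    rw [hy₀, Real.sq_sqrt hb.le, ← hy₀] at h1
    refine h1.trans (le_of_eq (intervalIntegral.integral_congr_Ioo_of_le hb.le fun y hy => ?_))
    simp only [s, H, hkeq y ⟨hy.1.le, hy.2.le⟩, mh,
      min_eq_left (show y ≤ 1 - y by linarith [hy.2])]
    congr 1
    rw [hy₀, mul_pow, div_pow, Real.sq_sqrt hb.le]
    have := hy.1.ne'
    field_simp
  have hex : Exact A (fun t => shapeLen 3 (A t)) (candidate V) 0 b c s (qExt b c)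
      (fun y => c y * s y * shapeLen 3 y) :=
    { marg := hm, range := hR, hc := hc, hs := by fun_prop, c0 := fun y => Real.sqrt_nonneg _,
      s0 := fun y => Real.sqrt_nonneg _, cs := hcs
      hF := by simp only [shapeLen_three, mh]; fun_prop
      prod := Eventually.of_forall fun z => rfl
      hq := continuous_qExt hc, q_eq := fun y hy => qExt_eq hy
      value := by
        rw [hI]
        refine le_trans (le_of_eq ?_) (add_le_add_right (mul_le_mul_of_nonneg_left hS zero_le_two) _)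
        have e : y₀ = Real.sqrt π * R := by
          rw [hy₀, hbR, Real.sqrt_mul Real.pi_pos.le, Real.sqrt_sq hR0.le]
        rw [hPb, hbR, e]
        have hrne : Real.sqrt π ≠ 0 := (Real.sqrt_pos.2 Real.pi_pos).ne'
        field_simp
        linear_combination 2 * hR3 }
  have hcpos : ∀ y ∈ Ioc 0 b, 0 < c y := fun y hy => by
    simp only [c, hkeq y ⟨hy.1.le, hy.2⟩]; exact Real.sqrt_pos.2 (div_pos hy.1 hb)
  obtain ⟨Y, hY, hYp, hAY, z₀, hz₀⟩ := hex.exists_profile hb hcpos
  have hcmp : ∀ z, b - Y z ≤ (Real.sqrt π * |z - z₀|) ^ 2 := by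
    intro z
    have hlim : Tendsto (fun ρ : ℝ => (ρ + Real.sqrt π * |z - z₀|) ^ 2) (𝓝[>] 0)
        (𝓝 ((Real.sqrt π * |z - z₀|) ^ 2)) := by
      refine Tendsto.mono_left ?_ nhdsWithin_le_nhds
      exact (show Continuous fun ρ : ℝ => (ρ + Real.sqrt π * |z - z₀|) ^ 2 by fun_prop).tendsto' _ _
        (by simp)
    refine ge_of_tendsto hlim ?_
    filter_upwards [self_mem_nhdsWithin] with ρ (hρ : 0 < ρ)
    set w := fun y : ℝ => Real.sqrt (b + ρ ^ 2 - y)
    set w' := fun y : ℝ => -1 / (2 * Real.sqrt (b + ρ ^ 2 - y))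
    have hpos : ∀ y ∈ Icc 0 b, 0 < b + ρ ^ 2 - y := fun y hy => by nlinarith [hy.2]
    have := hY.compare_abs hb hc hcpos hex.hF (w := w) (w' := w') (by fun_prop)
      (fun y hy => ((hasDerivAt_id y).const_sub (b + ρ ^ 2)).sqrt (hpos y ⟨hy.1.le, hy.2⟩).ne')
      (fun y hy => Real.sqrt_le_sqrt (by linarith [hy.1])) (k := Real.sqrt π) (Real.sqrt_nonneg _)
      (fun y hy => by
        set S := Real.sqrt (b + ρ ^ 2 - y)
        have hS0 : 0 < S := Real.sqrt_pos.2 (hpos y ⟨hy.1.le, hy.2⟩)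
        have hyy : y ∈ Icc 0 b := ⟨hy.1.le, hy.2⟩
        have e2 : c y * s y * shapeLen 3 y = s y * (2 * Real.sqrt π / y₀ * y) := by
          rw [← hcL y hyy]; ring
        have hle : y₀ * s y ≤ S := by
          simp only [s, hkeq y hyy, hy₀]
          rw [← Real.sqrt_mul hb.le]
          refine Real.sqrt_le_sqrt ?_
          rw [mul_sub, mul_one, mul_div_cancel₀ _ hb.ne']
          linarith [sq_nonneg ρ]
        have hc2 : c y ^ 2 = y / y₀ ^ 2 := by
          simp only [c]
          rw [Real.sq_sqrt (hk0 y), hkeq y hyy, hy₀, Real.sq_sqrt hb.le]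
        have e : |w' y| = 1 / (2 * S) := by
          simp only [w', abs_div, abs_neg, abs_one, abs_of_pos (mul_pos two_pos hS0), S]
        rw [e, e2, hc2]
        calc s y * (2 * Real.sqrt π / y₀ * y) * (1 / (2 * S))
            = Real.sqrt π * (y / y₀ ^ 2) * (y₀ * s y / S) := by field_simp
          _ ≤ Real.sqrt π * (y / y₀ ^ 2) * 1 :=
              mul_le_mul_of_nonneg_left ((div_le_one hS0).2 hle)
                (mul_nonneg (Real.sqrt_nonneg _) (div_nonneg hy.1.le (sq_nonneg _)))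
          _ = _ := mul_one _) (z₀ := z₀) hz₀ z
    simp only [w, add_sub_cancel_left, Real.sqrt_sq hρ.le] at this
    rw [Real.sqrt_le_left (by positivity)] at this
    linarith [sq_nonneg ρ]
  refine ⟨z₀, ae_eq_of_le hY.cont (B := fun t => shapeMarginal 3 R (t - z₀)) ?_ hYp ?_ hAY ?_ ?_⟩
  · simp only [shapeMarginal_three]
    have := continuous_intDist
    fun_prop
  · intro t
    simp only [shapeMarginal_three, show t + 1 - z₀ = t - z₀ + 1 by ring, intDist_add_one]
  · intro z
    obtain ⟨j, hj⟩ := intDist_sub_le z z₀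
    have h1 := hcmp (z + j)
    have hp : Y (z + j) = Y z := by simpa using hYp.int_mul j z
    rw [hp, hj, hbR, mul_pow, Real.sq_sqrt Real.pi_pos.le] at h1
    rw [shapeMarginal_three, mul_max_of_nonneg _ _ Real.pi_pos.le, mul_zero]
    exact max_le (hY.mem z).1 (by linarith)
  · rw [h.mass]
    simp only [shapeMarginal_three]
    rw [integral_profile (φ := fun x => π * max 0 x) (by fun_prop) hR0.le hR12
      (fun x hx => by simp [max_eq_left hx]) z₀]
    have e : ∀ t ∈ uIcc (-R) R, π * max 0 (R ^ 2 - t ^ 2) = π * (R ^ 2 - t ^ 2) := fun t ht => by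
      rw [uIcc_of_le (by linarith)] at ht
      rw [max_eq_right (by nlinarith [abs_le.2 ⟨ht.1, ht.2⟩, sq_abs t, abs_nonneg t])]
    rw [intervalIntegral.integral_congr e, intervalIntegral.integral_const_mul,
      intervalIntegral.integral_sub intervalIntegrable_const
        ((by fun_prop : Continuous fun t : ℝ => t ^ 2).intervalIntegrable _ _),
      intervalIntegral.integral_const, integral_pow, smul_eq_mul]
    norm_num
    linear_combination (-1 / 3 : ℝ) * hR3

end Vale.Agent.P232.Rigid.Circle
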