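import Vale.Agent.P232.Rigid.Circle.Side

/-!
# P232 rigidity: the marginal across a slab
-/

open MeasureTheory Set Filter intervalIntegral
open scoped Topology Interval NNReal Real

noncomputable section

namespace Vale.Agent.P232.Rigid.Circle

theorem shapeMarginal_one (R t : ℝ) :
    shapeMarginal 1 R t = if intDist t < R then 1 else 0 := by simp [shapeMarginal]

theorem slab_profile {V : ℝ} (hV : 0 < V) (hV2 : V ≤ 1 / 2) {A : ℝ → ℝ} (h : SideData 1 V A) :
    ∃ c : ℝ, ∀ᵐ t : ℝ, A t = shapeMarginal 1 (shapeRadius 1 V) (t - c) := by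
  have hm := marg_of_side h
  have hA := hm.hA
  have hP : candidate V ≤ 2 := min_le_right _ _
  set D := {z : ℝ | ∀ k : ℤ, Good A (z + k) ∧ (A (z + k) = 0 ∨ A (z + k) = 1)} with hD
  have haeD : ∀ᵐ z, z ∈ D := by
    filter_upwards [ae_good hA, h.zero_one rfl] with z hz hz01 k
    refine ⟨hz.add_int hA k, ?_⟩
    have e : A (z + k) = A z := by simpa using hA.per.int_mul k z
    rw [e]
    rcases mul_eq_zero.1 hz01 with h' | h'
    · exact Or.inl h'
    · exact Or.inr (by linarith)
  have hD0 : ∀ z ∈ D, Good A z ∧ (A z = 0 ∨ A z = 1) := fun z hz => by simpa using hz 0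
  have hshift : ∀ z ∈ D, ∀ j : ℤ, z + j ∈ D := fun z hz j k => by
    have := hz (j + k)
    push_cast at this
    rwa [← add_assoc] at this
  -- no alternation `1, 0, 1, 0` in a period
  have halt : ∀ p q r s : ℝ, p ∈ D → q ∈ D → r ∈ D → s ∈ D → p ≤ q → q ≤ r → r ≤ s → s ≤ p + 1 →
      A p = 1 → A q = 0 → A r = 1 → A s = 0 → False := by
    intro p q r s hp hq hr hs hpq hqr hrs hsp ep eq er es
    have hlim : Tendsto (fun t => |smoothed t A q - smoothed t A p| +
        |smoothed t A r - smoothed t A q| + |smoothed t A s - smoothed t A r| +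
        |smoothed t A p - smoothed t A s|) (𝓝[>] 0) (𝓝 4) := by
      have := ((((hD0 q hq).1.sub (hD0 p hp).1).abs.add ((hD0 r hr).1.sub (hD0 q hq).1).abs).add
        ((hD0 s hs).1.sub (hD0 r hr).1).abs).add ((hD0 p hp).1.sub (hD0 s hs).1).abs
      simp only [ep, eq, er, es] at this
      norm_num at this
      exact this
    have hle : (4 : ℝ) ≤ 2 := by
      refine le_of_tendsto hlim ?_
      filter_upwards [self_mem_nhdsWithin] with t (ht : 0 < t)
      set f := smoothed t A
      set d := fun z => t⁻¹ * (avg t A (z + t) - avg t A z)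
      have hdc : Continuous d := continuous_deriv_smoothed hA t
      have hdd : ∀ z, HasDerivAt f (d z) z := fun z => hasDerivAt_smoothed hA t z
      have seg : ∀ u v, u ≤ v → |f v - f u| ≤ ∫ z in u..v, |d z| := fun u v huv => by
        rw [← intervalIntegral.integral_eq_sub_of_hasDerivAt (fun z _ => hdd z)
          (hdc.intervalIntegrable _ _)]
        exact intervalIntegral.abs_integral_le_integral_abs huv
      have hfp : f (p + 1) = f p := periodic_avg (periodic_avg hA.per t) t p
      have hper : Function.Periodic (fun z => |d z|) 1 := fun z => by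
        simp only [d, show z + 1 + t = z + t + 1 by ring, periodic_avg hA.per t _]
      have htot := hm.pair ht (c := fun _ _ => 0) (s := fun _ _ => 1) continuous_const
        continuous_const (fun _ _ => rfl) (fun _ _ => rfl) (fun _ _ => le_rfl)
        (fun _ _ => zero_le_one) (fun _ _ => by norm_num)
      simp only [zero_mul, one_mul, intervalIntegral.integral_zero, zero_add] at htot
      have hsum : ∫ z in (0 : ℝ)..1, |d z| = (∫ z in p..q, |d z|) + (∫ z in q..r, |d z|) +
          (∫ z in r..s, |d z|) + ∫ z in s..p + 1, |d z| := by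
        have hi := fun u v => hdc.abs.intervalIntegrable (μ := volume) u v
        rw [integral_add_adjacent_intervals (hi _ _) (hi _ _),
          integral_add_adjacent_intervals (hi _ _) (hi _ _),
          integral_add_adjacent_intervals (hi _ _) (hi _ _), hper.intervalIntegral_add_eq p 0,
          zero_add]
      have := seg p q hpq
      have := seg q r hqr
      have := seg r s hrs
      have h4 := seg s (p + 1) hsp
      rw [hfp] at h4
      linarith
    norm_num at hle
  -- both values occur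
  have hi : IntervalIntegrable A volume 0 1 := hA.intervalIntegrable 0 1
  obtain ⟨q₀, hq₀, hq0⟩ : ∃ z ∈ D, A z = 0 := by
    by_contra hcon
    push Not at hcon
    have : A =ᵐ[volume] fun _ => (1 : ℝ) :=
      haeD.mono fun z hz => (hD0 z hz).2.resolve_left (hcon z hz)
    have h1 := h.mass
    rw [intervalIntegral.integral_congr_ae (this.mono fun z hz _ => hz)] at h1
    simp at h1
    linarith
  set S := {z | z ∈ D ∧ z ∈ Ioo q₀ (q₀ + 1) ∧ A z = 1} with hS
  have hSn : S.Nonempty := by
    by_contra hcon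
    have : ∀ᵐ z, z ∈ uIoc q₀ (q₀ + 1) → A z = 0 := by
      filter_upwards [haeD, Measure.ae_ne volume (q₀ + 1)] with z hz hne hzm
      rw [uIoc_of_le (by linarith)] at hzm
      exact (hD0 z hz).2.resolve_right fun h1 =>
        hcon ⟨z, hz, ⟨hzm.1, lt_of_le_of_ne hzm.2 hne⟩, h1⟩
    have h1 := h.mass
    have hp : ∫ t in (0 : ℝ)..1, A t = ∫ t in q₀..q₀ + 1, A t := by
      rw [hA.per.intervalIntegral_add_eq q₀ 0, zero_add]
    rw [hp, intervalIntegral.integral_congr_ae (g := fun _ => (0 : ℝ)) this] at h1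
    simp at h1
    linarith
  have hSb : BddBelow S := ⟨q₀, fun z hz => hz.2.1.1.le⟩
  have hSa : BddAbove S := ⟨q₀ + 1, fun z hz => hz.2.1.2.le⟩
  set a := sInf S
  set b := sSup S
  have haq : q₀ ≤ a := le_csInf hSn fun z hz => hz.2.1.1.le
  have hbq : b ≤ q₀ + 1 := csSup_le hSn fun z hz => hz.2.1.2.le
  have hab : a ≤ b := (csInf_le hSb hSn.some_mem).trans (le_csSup hSa hSn.some_mem)
  have hloc : ∀ᵐ z, z ∈ Ioo q₀ (q₀ + 1) → A z = (Ioo a b).indicator (fun _ => (1 : ℝ)) z := by
    filter_upwards [haeD, Measure.ae_ne volume a, Measure.ae_ne volume b] with z hz hna hnb hzI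
    by_cases hzab : z ∈ Ioo a b
    · rw [indicator_of_mem hzab]
      refine (hD0 z hz).2.resolve_left fun h0 => ?_
      obtain ⟨p, hp, hpz⟩ := exists_lt_of_csInf_lt hSn hzab.1
      obtain ⟨r, hr, hrz⟩ := exists_lt_of_lt_csSup hSn hzab.2
      have hq1 : A (q₀ + ((1 : ℤ) : ℝ)) = 0 := by push_cast; rw [hA.per, hq0]
      refine halt p z r (q₀ + ((1 : ℤ) : ℝ)) hp.1 hz hr.1 (hshift q₀ hq₀ 1) hpz.le hrz.le ?_ ?_
        hp.2.2 h0 hr.2.2 hq1
      · push_cast; exact hr.2.1.2.le
      · push_cast; linarith [hp.2.1.1]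
    · rw [indicator_of_notMem hzab]
      refine (hD0 z hz).2.resolve_right fun h1 => hzab ?_
      exact ⟨lt_of_le_of_ne (csInf_le hSb ⟨hz, hzI, h1⟩) (Ne.symm hna),
        lt_of_le_of_ne (le_csSup hSa ⟨hz, hzI, h1⟩) hnb⟩
  have hba : b - a = V := by
    have hp : ∫ t in (0 : ℝ)..1, A t = ∫ t in q₀..q₀ + 1, A t := by
      rw [hA.per.intervalIntegral_add_eq q₀ 0, zero_add]
    have h1 : ∫ t in q₀..q₀ + 1, A t =
        ∫ t in q₀..q₀ + 1, (Ioo a b).indicator (fun _ => (1 : ℝ)) t := by
      refine intervalIntegral.integral_congr_ae ?_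
      filter_upwards [hloc, Measure.ae_ne volume (q₀ + 1)] with z hz hne hzm
      rw [uIoc_of_le (by linarith)] at hzm
      exact hz ⟨hzm.1, lt_of_le_of_ne hzm.2 hne⟩
    have h2 := h.mass
    rw [hp, h1, intervalIntegral.integral_of_le (by linarith),
      MeasureTheory.integral_indicator measurableSet_Ioo,
      Measure.restrict_restrict measurableSet_Ioo,
      inter_eq_left.2 (show Ioo a b ⊆ Ioc q₀ (q₀ + 1) from fun z hz =>
        ⟨by linarith [hz.1], by linarith [hz.2]⟩), setIntegral_const,
      measureReal_def, Real.volume_Ioo, ENNReal.toReal_ofReal (sub_nonneg.2 hab), smul_eq_mul,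
      mul_one] at h2
    exact h2
  refine ⟨(a + b) / 2, ?_⟩
  set B := fun t => shapeMarginal 1 (shapeRadius 1 V) (t - (a + b) / 2) with hB
  have hR : shapeRadius 1 V = V / 2 := by simp [shapeRadius]
  have hBloc : ∀ z ∈ Ioo q₀ (q₀ + 1), B z = (Ioo a b).indicator (fun _ => (1 : ℝ)) z := by
    intro z hz
    simp only [B, shapeMarginal_one, hR]
    by_cases hzab : z ∈ Ioo a b
    · rw [indicator_of_mem hzab, if_pos]
      have h1 : |z - (a + b) / 2| < V / 2 := abs_lt.2 ⟨by linarith [hzab.1], by linarith [hzab.2]⟩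
      rw [intDist_eq_abs (by linarith)]
      exact h1
    · rw [indicator_of_notMem hzab, if_neg]
      intro hlt
      rw [intDist, abs_lt] at hlt
      set k := round (z - (a + b) / 2)
      have hk : k = 0 := by
        have h1 : ((k : ℤ) : ℝ) < ((1 : ℤ) : ℝ) := by push_cast; linarith [hlt.1, hz.2]
        have h2 : (((-1 : ℤ)) : ℝ) < ((k : ℤ) : ℝ) := by push_cast; linarith [hlt.2, hz.1]
        have := Int.cast_lt.1 h1
        have := Int.cast_lt.1 h2
        omega
      rw [hk, Int.cast_zero, sub_zero] at hlt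
      exact hzab ⟨by linarith [hlt.1], by linarith [hlt.2]⟩
  have hBp : Function.Periodic B 1 := fun t => by
    simp only [B, shapeMarginal_one, show t + 1 - (a + b) / 2 = t - (a + b) / 2 + 1 by ring,
      intDist_add_one]
  have hall : ∀ᵐ z : ℝ, ∀ k : ℤ, z + k ∈ Ioo q₀ (q₀ + 1) → A (z + k) = B (z + k) := by
    refine ae_all_iff.2 fun k => ?_
    have h1 : ∀ᵐ z, z ∈ Ioo q₀ (q₀ + 1) → A z = B z :=
      hloc.mono fun z hz hzI => (hz hzI).trans (hBloc z hzI).symm
    exact (measurePreserving_add_right volume ((k : ℝ))).quasiMeasurePreserving.ae h1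
  have hint : ∀ᵐ z : ℝ, ∀ k : ℤ, z ≠ q₀ - k :=
    ae_all_iff.2 fun k => Measure.ae_ne volume _
  filter_upwards [hall, hint] with z hz hne
  set k := -⌊z - q₀⌋
  have e1 : A (z + k) = A z := by simpa using hA.per.int_mul k z
  have e2 : B (z + k) = B z := by simpa using hBp.int_mul k z
  show A z = B z
  rw [← e1, ← e2]
  refine hz k ⟨lt_of_le_of_ne ?_ fun he => hne k ?_, ?_⟩
  · simp only [k]; push_cast; linarith [Int.floor_le (z - q₀)]
  · linarith
  · simp only [k]; push_cast; linarith [Int.lt_floor_add_one (z - q₀)]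

end Vale.Agent.P232.Rigid.Circle
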