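import Vale.Agent.P232.Rigid.Circle.Core

/-!
# P232 rigidity: continuous representative and comparison with the candidate profile
-/

open MeasureTheory Set Filter intervalIntegral
open scoped Topology Interval NNReal Real

noncomputable section

namespace Vale.Agent.P232.Rigid.Circle

/-- The continuation of `c²` beyond `[0, b]`, growing linearly. -/
def qExt (b : ℝ) (c : ℝ → ℝ) (y : ℝ) : ℝ :=
  c (max 0 (min b y)) ^ 2 + max 0 (y - b) + max 0 (-y)

theorem qExt_eq {b : ℝ} {c : ℝ → ℝ} {y : ℝ} (hy : y ∈ Icc 0 b) : qExt b c y = c y ^ 2 := by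
  simp [qExt, max_eq_right hy.1, hy.2]
  linarith [hy.1]

theorem continuous_qExt {b : ℝ} {c : ℝ → ℝ} (hc : Continuous c) : Continuous (qExt b c) := by
  unfold qExt; fun_prop

theorem qExt_nonneg (b : ℝ) (c : ℝ → ℝ) (y : ℝ) : 0 ≤ qExt b c y := by
  unfold qExt; positivity

theorem qExt_pos {b : ℝ} (hb : 0 < b) {c : ℝ → ℝ} (hc : ∀ y ∈ Ioc 0 b, 0 < c y) {y : ℝ}
    (hy : y ≠ 0) : 0 < qExt b c y := by
  rcases lt_or_gt_of_ne hy with h | h
  · have := le_max_right 0 (-y)
    have h1 := sq_nonneg (c (max 0 (min b y)))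
    have h2 := le_max_left 0 (y - b)
    unfold qExt; linarith
  · have h1 : 0 < c (max 0 (min b y)) :=
      hc _ ⟨lt_max_of_lt_right (lt_min hb h), max_le hb.le (min_le_left _ _)⟩
    have h2 := le_max_left 0 (y - b)
    have h3 := le_max_left 0 (-y)
    unfold qExt; nlinarith

/-- `G`, `G' = qExt b c`. -/
def gFun (b : ℝ) (c : ℝ → ℝ) (y : ℝ) : ℝ := ∫ t in (0 : ℝ)..y, qExt b c t

theorem hasDerivAt_gFun {b : ℝ} {c : ℝ → ℝ} (hc : Continuous c) (y : ℝ) :
    HasDerivAt (gFun b c) (qExt b c y) y :=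
  ((continuous_qExt hc).integral_hasStrictDerivAt 0 y).hasDerivAt

theorem gFun_sub {b : ℝ} {c : ℝ → ℝ} (hc : Continuous c) (x y : ℝ) :
    gFun b c y - gFun b c x = ∫ t in x..y, qExt b c t :=
  integral_interval_sub_left ((continuous_qExt hc).intervalIntegrable _ _)
    ((continuous_qExt hc).intervalIntegrable _ _)

theorem strictMono_gFun {b : ℝ} (hb : 0 < b) {c : ℝ → ℝ} (hc : Continuous c)
    (hc0 : ∀ y ∈ Ioc 0 b, 0 < c y) : StrictMono (gFun b c) := by
  intro x y hxy
  rw [← sub_pos, gFun_sub hc]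
  refine intervalIntegral.integral_pos hxy (continuous_qExt hc).continuousOn
    (fun t _ => qExt_nonneg b c t) ?_
  by_cases hx : x = 0
  · exact ⟨y, right_mem_Icc.2 hxy.le, qExt_pos hb hc0 (by linarith)⟩
  · exact ⟨x, left_mem_Icc.2 hxy.le, qExt_pos hb hc0 hx⟩

theorem surjective_gFun {b : ℝ} {c : ℝ → ℝ} (hc : Continuous c) : Function.Surjective (gFun b c) := by
  have hcont : Continuous (gFun b c) :=
    continuous_iff_continuousAt.2 fun y => (hasDerivAt_gFun hc y).continuousAt
  have hq := continuous_qExt (b := b) hc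
  refine hcont.surjective ?_ ?_
  · refine tendsto_atTop.2 fun M => ?_
    filter_upwards [eventually_ge_atTop (max (b + 1) (b + 1 + (M - gFun b c (b + 1))))] with y hy
    have h1 : b + 1 ≤ y := (le_max_left _ _).trans hy
    have h2 : ∫ _ in (b + 1)..y, (1 : ℝ) ≤ ∫ t in (b + 1)..y, qExt b c t := by
      refine integral_mono_on h1 intervalIntegrable_const (hq.intervalIntegrable _ _) fun t ht => ?_
      have := le_max_right 0 (t - b)
      have h3 := sq_nonneg (c (max 0 (min b t)))
      have h4 := le_max_left 0 (-t)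
      unfold qExt; linarith [ht.1]
    rw [← gFun_sub hc, intervalIntegral.integral_const, smul_eq_mul, mul_one] at h2
    linarith [(le_max_right _ _).trans hy]
  · refine tendsto_atBot.2 fun M => ?_
    filter_upwards [eventually_le_atBot (min (-1) (-1 - (gFun b c (-1) - M)))] with y hy
    have h1 : y ≤ -1 := hy.trans (min_le_left _ _)
    have h2 : ∫ _ in y..(-1 : ℝ), (1 : ℝ) ≤ ∫ t in y..(-1 : ℝ), qExt b c t := by
      refine integral_mono_on h1 intervalIntegrable_const (hq.intervalIntegrable _ _) fun t ht => ?_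
      have := le_max_right 0 (-t)
      have h3 := sq_nonneg (c (max 0 (min b t)))
      have h4 := le_max_left 0 (t - b)
      unfold qExt; linarith [ht.2]
    rw [← gFun_sub hc, intervalIntegral.integral_const, smul_eq_mul, mul_one] at h2
    linarith [hy.trans (min_le_right _ _)]

/-- A continuous profile whose `G` moves no faster than `F`. -/
structure Profile (Y : ℝ → ℝ) (b : ℝ) (c F : ℝ → ℝ) : Prop where
  cont : Continuous Y
  mem : ∀ z, Y z ∈ Icc 0 b
  lip : ∀ p r : ℝ, p ≤ r → r ≤ p + 1 →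
    |∫ y in Y p..Y r, qExt b c y| ≤ ∫ z in p..r, F (Y z)

theorem Profile.reflect {Y : ℝ → ℝ} {b : ℝ} {c F : ℝ → ℝ} (h : Profile Y b c F) (z₀ : ℝ) :
    Profile (fun t => Y (z₀ - t)) b c F := by
  refine ⟨h.cont.comp (by fun_prop), fun z => h.mem _, fun p r hpr hr => ?_⟩
  rw [intervalIntegral.integral_comp_sub_left (fun z => F (Y z)) z₀, intervalIntegral.integral_symm,
    abs_neg]
  exact h.lip _ _ (by linarith) (by linarith)

theorem Profile.shift {Y : ℝ → ℝ} {b : ℝ} {c F : ℝ → ℝ} (h : Profile Y b c F) (z₀ : ℝ) :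
    Profile (fun t => Y (z₀ + t)) b c F := by
  refine ⟨h.cont.comp (by fun_prop), fun z => h.mem _, fun p r hpr hr => ?_⟩
  rw [intervalIntegral.integral_comp_add_left (fun z => F (Y z)) z₀]
  exact h.lip _ _ (by linarith) (by linarith)

/-- The continuous representative of a marginal with an exact calibration. -/
theorem Exact.exists_profile {A Λ : ℝ → ℝ} {P b : ℝ} {c s F : ℝ → ℝ}
    (h : Exact A Λ P 0 b c s (qExt b c) F) (hb : 0 < b) (hc0 : ∀ y ∈ Ioc 0 b, 0 < c y) :
    ∃ Y : ℝ → ℝ, Profile Y b c F ∧ Function.Periodic Y 1 ∧ A =ᵐ[volume] Y ∧ ∃ z₀, Y z₀ = b := by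
  have hA := h.marg.hA
  set G := gFun b c with hG
  have hGm : StrictMono G := strictMono_gFun hb h.hc hc0
  set e : ℝ ≃o ℝ := StrictMono.orderIsoOfSurjective G hGm (surjective_gFun h.hc) with he
  have hes : ∀ y, e.symm (G y) = y := fun y => e.symm_apply_apply y
  set D := {z : ℝ | ∀ k : ℤ, Good A (z + k) ∧ A (z + k) ∈ Icc (0 : ℝ) b} with hD
  have haeD : ∀ᵐ z, z ∈ D := by
    filter_upwards [ae_good hA, h.range.mem] with z hz hzm k
    refine ⟨hz.add_int hA k, ?_⟩
    have : A (z + k) = A z := by simpa using hA.per.int_mul k z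
    rwa [this]
  have hDdense : Dense D := MeasureTheory.Measure.dense_of_ae haeD
  have hD0 : ∀ z ∈ D, Good A z ∧ A z ∈ Icc (0 : ℝ) b := fun z hz => by simpa using hz 0
  obtain ⟨B, hB⟩ := isCompact_Icc.exists_bound_of_continuousOn
    (h.hF.continuousOn (s := Icc (-1 : ℝ) 1))
  have hFA : BddPer (fun z => F (A z)) B :=
    ⟨h.hF.measurable.comp hA.meas, fun z => by simp [hA.per z],
      fun z => by simpa using hB _ (abs_le.1 (hA.bound z))⟩
  set K := max (max B (G b - G 0)) 0
  have hlip : ∀ p ∈ D, ∀ r ∈ D, p ≤ r → |G (A r) - G (A p)| ≤ K * (r - p) := by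
    intro p hp r hr hpr
    obtain ⟨hpg, hpm⟩ := hD0 p hp
    obtain ⟨hrg, hrm⟩ := hD0 r hr
    rcases le_or_gt r (p + 1) with h1 | h1
    · rw [gFun_sub h.hc]
      refine (h.lip hpg hrg hpm hrm hpr h1).trans ?_
      refine (integral_mono_on hpr (hFA.intervalIntegrable _ _) intervalIntegrable_const
        (g := fun _ => K) fun z _ => ((le_abs_self _).trans (hFA.bound z)).trans
          ((le_max_left _ _).trans (le_max_left _ _))).trans_eq ?_
      simp [mul_comm]
    · have e1 : |G (A r) - G (A p)| ≤ G b - G 0 := abs_sub_le_iff.2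
        ⟨sub_le_sub (hGm.monotone hrm.2) (hGm.monotone hpm.1),
          sub_le_sub (hGm.monotone hpm.2) (hGm.monotone hrm.1)⟩
      calc _ ≤ K := e1.trans ((le_max_right _ _).trans (le_max_left _ _))
        _ ≤ K * (r - p) := le_mul_of_one_le_right (le_max_right _ _) (by linarith)
  have hL : LipschitzOnWith K.toNNReal (fun z => G (A z)) D := by
    refine LipschitzOnWith.of_dist_le_mul fun x hx y hy => ?_
    rw [Real.coe_toNNReal K (le_max_right _ _), Real.dist_eq, Real.dist_eq]
    rcases le_total x y with hxy | hxy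
    · rw [abs_sub_comm (G (A x)), abs_sub_comm x, abs_of_nonneg (sub_nonneg.2 hxy)]
      exact hlip x hx y hy hxy
    · rw [abs_of_nonneg (sub_nonneg.2 hxy)]
      exact hlip y hy x hx hxy
  obtain ⟨W, hW, hWD⟩ := hL.extend_real
  have hWc := hW.continuous
  set Y := fun z => e.symm (W z) with hY
  have hYc : Continuous Y := e.symm.continuous.comp hWc
  have hYD : ∀ z ∈ D, Y z = A z := fun z hz => by
    simp only [Y, ← hWD hz, hes]
  have hYper : Function.Periodic Y 1 := by
    have : (fun z => Y (z + 1)) = Y := Continuous.ext_on hDdense (hYc.comp (by fun_prop)) hYc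
      fun z hz => by
        have hz1 : z + 1 ∈ D := fun k => by
          have := hz (1 + k)
          push_cast at this
          rwa [← add_assoc] at this
        rw [hYD _ hz1, hYD _ hz, hA.per]
    exact fun z => congrFun this z
  have hYmem : ∀ z, Y z ∈ Icc (0 : ℝ) b := by
    intro z
    have hcl : IsClosed {z | Y z ∈ Icc (0 : ℝ) b} := isClosed_Icc.preimage hYc
    have hsub : D ⊆ {z | Y z ∈ Icc (0 : ℝ) b} := fun x hx => by
      show Y x ∈ Icc (0 : ℝ) b; rw [hYD x hx]; exact (hD0 x hx).2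
    exact hcl.closure_subset_iff.2 hsub (hDdense.closure_eq ▸ mem_univ z)
  have hYA : A =ᵐ[volume] Y := haeD.mono fun z hz => (hYD z hz).symm
  have hq := continuous_qExt (b := b) h.hc
  refine ⟨Y, ⟨hYc, hYmem, fun p r hpr hr => ?_⟩, hYper, hYA, ?_⟩
  · rcases eq_or_lt_of_le hpr with rfl | hlt
    · simp
    rcases eq_or_lt_of_le hr with rfl | hlt1
    · rw [hYper p]
      simp only [intervalIntegral.integral_same, abs_zero]
      refine integral_nonneg_of_ae_restrict hpr ?_
      refine ae_restrict_of_ae ?_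
      filter_upwards [h.prod, hYA] with z hz hz'
      show 0 ≤ F (Y z)
      rw [← hz', ← hz]
      exact mul_nonneg (mul_nonneg (h.c0 _) (h.s0 _)) (h.marg.Λ_nonneg z)
    obtain ⟨pn, hpn, hpn'⟩ := mem_closure_iff_seq_limit.1 (hDdense.closure_eq ▸ mem_univ p)
    obtain ⟨rn, hrn, hrn'⟩ := mem_closure_iff_seq_limit.1 (hDdense.closure_eq ▸ mem_univ r)
    have hi := fun u v => hFA.intervalIntegrable u v
    have e1 : ∀ u v, ∫ z in u..v, F (A z) = ∫ z in u..v, F (Y z) := fun u v =>
      intervalIntegral.integral_congr_ae (hYA.mono fun z hz _ => by rw [hz])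
    have hFY : Continuous fun z => F (Y z) := h.hF.comp hYc
    have hGc : Continuous G :=
      continuous_iff_continuousAt.2 fun y => (hasDerivAt_gFun h.hc y).continuousAt
    rw [← gFun_sub h.hc]
    have hl : Tendsto (fun n => |G (Y (rn n)) - G (Y (pn n))|) atTop (𝓝 |G (Y r) - G (Y p)|) :=
      ((((hGc.comp hYc).tendsto r).comp hrn').sub (((hGc.comp hYc).tendsto p).comp hpn')).abs
    have hP : Continuous fun v => ∫ z in (0 : ℝ)..v, F (Y z) :=
      intervalIntegral.continuous_primitive (fun u v => hFY.intervalIntegrable u v) 0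
    have hr2 : Tendsto (fun n => ∫ z in pn n..rn n, F (Y z)) atTop (𝓝 (∫ z in p..r, F (Y z))) := by
      have := ((hP.tendsto r).comp hrn').sub ((hP.tendsto p).comp hpn')
      simpa [integral_interval_sub_left (hFY.intervalIntegrable _ _) (hFY.intervalIntegrable _ _)]
        using this
    refine le_of_tendsto_of_tendsto hl hr2 ?_
    filter_upwards [(hrn'.sub hpn').eventually_const_lt (sub_pos.2 hlt),
      (hrn'.sub hpn').eventually_lt_const (show r - p < 1 by linarith)] with n hn hn1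
    rw [gFun_sub h.hc, hYD _ (hpn n), hYD _ (hrn n), ← e1]
    exact h.lip (hD0 _ (hpn n)).1 (hD0 _ (hrn n)).1 (hD0 _ (hpn n)).2 (hD0 _ (hrn n)).2
      (by linarith) (by linarith)
  · obtain ⟨z₀, -, hz₀⟩ := isCompact_Icc.exists_isMaxOn
      (nonempty_Icc.2 (zero_le_one (α := ℝ))) hYc.continuousOn
    refine ⟨z₀, le_antisymm (hYmem z₀).2 (not_lt.1 fun hlt => ?_)⟩
    refine h.range.high (b - Y z₀) (sub_pos.2 hlt) ?_
    filter_upwards [hYA] with z hz
    rw [hz, sub_sub_cancel]
    obtain ⟨w, hw, hwz⟩ := hYper.exists_mem_Ico₀ one_pos z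
    exact hwz ▸ hz₀ (Ico_subset_Icc_self hw)

/-- Comparison: `w(Y)` grows no faster than `k`. -/
theorem Profile.compare {Y : ℝ → ℝ} {b : ℝ} {c F : ℝ → ℝ} (h : Profile Y b c F) (hb : 0 < b)
    (hc : Continuous c) (hc0 : ∀ y ∈ Ioc 0 b, 0 < c y) (hF : Continuous F) {w w' : ℝ → ℝ} (hwc : Continuous w)
    (hw : ∀ y ∈ Ioc 0 b, HasDerivAt w (w' y) y) (hw0 : ∀ y ∈ Icc 0 b, w y ≤ w 0) {k : ℝ}
    (hk : 0 ≤ k) (hwk : ∀ y ∈ Ioc 0 b, F y * |w' y| ≤ k * c y ^ 2) (hY0 : Y 0 = b) {t : ℝ}
    (ht : 0 ≤ t) : w (Y t) ≤ w b + k * t := by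
  set G := gFun b c with hG
  have hGm : StrictMono G := strictMono_gFun hb hc hc0
  set e : ℝ ≃o ℝ := StrictMono.orderIsoOfSurjective G hGm (surjective_gFun hc) with he
  have hes : ∀ y, e.symm (G y) = y := fun y => e.symm_apply_apply y
  refine le_of_forall_pos_le_add fun δ hδ => ?_
  set η := δ / (t + 1)
  have hη : 0 < η := by positivity
  have key := image_le_of_liminf_slope_right_lt_deriv_boundary' (a := 0) (b := t)
    (f := fun x => w (Y x)) (f' := fun _ => k + η / 2) (hwc.comp h.cont).continuousOn ?_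
    (B := fun x => w b + (k + η) * x) (B' := fun _ => k + η) (by simp [hY0]) (by fun_prop)
    (fun x _ => by
      simpa using ((hasDerivAt_id x).const_mul (k + η)).const_add (w b) |>.hasDerivWithinAt)
    (fun x _ _ => by linarith) (right_mem_Icc.2 ht)
  · have : η * t ≤ δ := by
      have : η * (t + 1) = δ := div_mul_cancel₀ δ (by linarith)
      nlinarith
    linarith
  intro x _ r hr
  rcases (h.mem x).1.eq_or_lt with hy | hy
  · refine Eventually.frequently ?_
    filter_upwards [self_mem_nhdsWithin] with z (hz : x < z)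
    rw [slope_def_field, div_lt_iff₀ (sub_pos.2 hz)]
    show w (Y z) - w (Y x) < r * (z - x)
    rw [← hy]
    nlinarith [hw0 _ (h.mem z)]
  set y := Y x with hyx
  have hym : y ∈ Ioc 0 b := ⟨hy, (h.mem x).2⟩
  have hq : qExt b c y = c y ^ 2 := qExt_eq (h.mem x)
  have hqpos : 0 < qExt b c y := qExt_pos hb hc0 hy.ne'
  -- the derivative of `w ∘ G⁻¹` at `G y`
  have hinv : HasDerivAt e.symm (qExt b c y)⁻¹ (G y) :=
    HasDerivAt.of_local_left_inverse e.symm.continuous.continuousAt
      (by rw [hes]; exact hasDerivAt_gFun hc y) hqpos.ne'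
      (Eventually.of_forall fun u => e.apply_symm_apply u)
  have hv : HasDerivAt (fun u => w (e.symm u)) (w' y * (qExt b c y)⁻¹) (G y) := by
    refine HasDerivAt.comp (G y) ?_ hinv
    rw [hes]; exact hw y hym
  set d := |w' y * (qExt b c y)⁻¹| with hd
  have hdk : d * F y ≤ k := by
    rw [hd, abs_mul, abs_inv, abs_of_pos hqpos, mul_comm |w' y|, mul_assoc,
      inv_mul_le_iff₀ hqpos, mul_comm |w' y|, hq, mul_comm (c y ^ 2)]
    exact hwk y hym
  have hlim : Tendsto (fun ρ => (d + ρ) * (F y + ρ)) (𝓝[>] 0) (𝓝 (d * F y)) := by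
    have : Tendsto (fun ρ : ℝ => (d + ρ) * (F y + ρ)) (𝓝 0) (𝓝 (d * F y)) := by
      simpa using ((continuous_const.add continuous_id).mul
        (continuous_const.add continuous_id)).tendsto (0 : ℝ) (f := fun ρ => (d + ρ) * (F y + ρ))
    exact this.mono_left nhdsWithin_le_nhds
  obtain ⟨ρ, hρr, hρ⟩ := ((hlim.eventually_lt_const (show d * F y < r by linarith)).and
    self_mem_nhdsWithin).exists
  have hρ0 : 0 < ρ := hρ
  have hGY : Continuous fun z => G (Y z) :=
    (continuous_iff_continuousAt.2 fun u => (hasDerivAt_gFun hc u).continuousAt).comp h.cont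
  have h1 := (hGY.tendsto x).eventually ((hasDerivAt_iff_isLittleO.1 hv).bound hρ0)
  obtain ⟨κ, hκ, hFκ⟩ := Metric.eventually_nhds_iff.1
    (((hF.comp h.cont).tendsto x).eventually_lt_const (show F y < F y + ρ by linarith))
  refine Eventually.frequently ?_
  filter_upwards [self_mem_nhdsWithin, nhdsWithin_le_nhds h1,
    nhdsWithin_le_nhds (Metric.ball_mem_nhds x (lt_min hκ one_pos))] with z (hz : x < z) hz1 hz2
  rw [Metric.mem_ball, Real.dist_eq, abs_of_pos (sub_pos.2 hz), lt_min_iff] at hz2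
  simp only [smul_eq_mul, Real.norm_eq_abs, hes] at hz1
  have h2 : |G (Y z) - G y| ≤ (F y + ρ) * (z - x) := by
    rw [gFun_sub hc]
    refine (h.lip x z hz.le (by linarith)).trans ?_
    refine (integral_mono_on hz.le ((hF.comp h.cont).intervalIntegrable _ _)
      intervalIntegrable_const (g := fun _ => F y + ρ) fun u hu => (hFκ ?_).le).trans_eq ?_
    · rw [Real.dist_eq, abs_of_nonneg (sub_nonneg.2 hu.1)]; linarith [hu.2]
    · simp [mul_comm]; ring
  rw [slope_def_field, div_lt_iff₀ (sub_pos.2 hz)]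
  show w (Y z) - w (Y x) < r * (z - x)
  rw [← hyx]
  calc w (Y z) - w y ≤ |w (Y z) - w y - (G (Y z) - G y) * (w' y * (qExt b c y)⁻¹)| +
        |G (Y z) - G y| * d := by
        rw [hd, ← abs_mul]
        linarith [le_abs_self (w (Y z) - w y - (G (Y z) - G y) * (w' y * (qExt b c y)⁻¹)),
          le_abs_self ((G (Y z) - G y) * (w' y * (qExt b c y)⁻¹))]
    _ ≤ (d + ρ) * |G (Y z) - G y| := by linarith
    _ ≤ (d + ρ) * ((F y + ρ) * (z - x)) :=
        mul_le_mul_of_nonneg_left h2 (add_nonneg (abs_nonneg _) hρ0.le)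
    _ < r * (z - x) := by
        rw [← mul_assoc]; exact mul_lt_mul_of_pos_right hρr (sub_pos.2 hz)

/-- The two-sided comparison from a maximum point. -/
theorem Profile.compare_abs {Y : ℝ → ℝ} {b : ℝ} {c F : ℝ → ℝ} (h : Profile Y b c F) (hb : 0 < b)
    (hc : Continuous c) (hc0 : ∀ y ∈ Ioc 0 b, 0 < c y) (hF : Continuous F) {w w' : ℝ → ℝ} (hwc : Continuous w)
    (hw : ∀ y ∈ Ioc 0 b, HasDerivAt w (w' y) y) (hw0 : ∀ y ∈ Icc 0 b, w y ≤ w 0) {k : ℝ}
    (hk : 0 ≤ k) (hwk : ∀ y ∈ Ioc 0 b, F y * |w' y| ≤ k * c y ^ 2) {z₀ : ℝ} (hY0 : Y z₀ = b)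
    (z : ℝ) : w (Y z) ≤ w b + k * |z - z₀| := by
  rcases le_total z₀ z with hz | hz
  · have := (h.shift z₀).compare hb hc hc0 hF hwc hw hw0 hk hwk (by simpa using hY0)
      (t := z - z₀) (sub_nonneg.2 hz)
    rwa [add_sub_cancel, ← abs_of_nonneg (sub_nonneg.2 hz)] at this
  · have := (h.reflect z₀).compare hb hc hc0 hF hwc hw hw0 hk hwk (by simpa using hY0)
      (t := z₀ - z) (sub_nonneg.2 hz)
    rwa [sub_sub_cancel, ← abs_of_nonneg (sub_nonneg.2 hz), abs_sub_comm] at this

end Vale.Agent.P232.Rigid.Circle
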