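import Vale.Agent.P232.Rigid.Circle.Smooth

/-!
# P232 rigidity: the calibration inequality of a marginal and its first variation

With calibrations `c(A)`, `s(A)` the smoothed inequality bounds `∫ c(A) Λ + 2 ∫ s` over the
essential range of `A`. When one calibration attains `P`, turning it a little shows that
`G(A)`, `G' = c²`, is Lipschitz with constant `c(A) s(A) Λ`.
-/

open MeasureTheory Set Filter intervalIntegral
open scoped Topology Interval NNReal Real

noncomputable section

namespace Vale.Agent.P232.Rigid.Circle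

/-- A marginal with its slice lengths. -/
structure Marg (A Λ : ℝ → ℝ) (P : ℝ) : Prop where
  hA : BddPer A 1
  hΛ : BddPer Λ 4
  Λ_nonneg : ∀ z, 0 ≤ Λ z
  lin : LinBound A Λ P

/-- A Lebesgue point of the marginal. -/
def Good (A : ℝ → ℝ) (z : ℝ) : Prop := Tendsto (fun h => smoothed h A z) (𝓝[>] 0) (𝓝 (A z))

variable {A Λ : ℝ → ℝ} {P : ℝ}

theorem Good.add_int {M : ℝ} (hA : BddPer A M) {z : ℝ} (hz : Good A z) (k : ℤ) :
    Good A (z + k) := by
  have h1 : ∀ h, smoothed h A (z + k) = smoothed h A z := fun h => by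
    have := (periodic_avg (periodic_avg hA.per h) h).int_mul k z
    simpa [smoothed] using this
  have h2 : A (z + k) = A z := by simpa using hA.per.int_mul k z
  simpa only [Good, h1, h2] using hz

theorem ae_good {M : ℝ} (hA : BddPer A M) : ∀ᵐ z, Good A z := ae_tendsto_smoothed hA

theorem Marg.nonneg (hm : Marg A Λ P) : 0 ≤ P := by
  have := hm.lin (fun _ => 0) (fun _ => 0) continuous_const (fun _ => rfl) contDiff_const
    (fun _ => rfl) (fun _ => le_rfl) (fun _ => by norm_num)
  simpa using this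

/-- The inequality for calibrations of position and value. -/
theorem Marg.pair (hm : Marg A Λ P) {h : ℝ} (hh : 0 < h) {c s : ℝ → ℝ → ℝ}
    (hc : Continuous (Function.uncurry c)) (hs : Continuous (Function.uncurry s))
    (hcp : ∀ z y, c (z + 1) y = c z y) (hsp : ∀ z y, s (z + 1) y = s z y)
    (hc0 : ∀ z y, 0 ≤ c z y) (hs0 : ∀ z y, 0 ≤ s z y)
    (hcs : ∀ z y, c z y ^ 2 + s z y ^ 2 ≤ 1) :
    (∫ z in (0 : ℝ)..1, c z (smoothed h A z) * smoothed h Λ z) +
      (∫ z in (0 : ℝ)..1, s z (smoothed h A z) *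
        |h⁻¹ * (avg h A (z + h) - avg h A z)|) ≤ P := by
  set f := smoothed h A with hf
  set f' := fun z => h⁻¹ * (avg h A (z + h) - avg h A z) with hf'
  have hfc : Continuous f := continuous_avg (continuous_avg hm.hA.intervalIntegrable h
    |>.intervalIntegrable) h
  have hf'c : Continuous f' := continuous_deriv_smoothed hm.hA h
  have hcc : Continuous fun z => c z (f z) := hc.comp (continuous_id.prodMk hfc)
  have hsc : Continuous fun z => s z (f z) := hs.comp (continuous_id.prodMk hfc)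
  have hfp : Function.Periodic f 1 := periodic_avg (periodic_avg hm.hA.per h) h
  have hf'p : Function.Periodic f' 1 := fun z => by
    simp only [f', show z + 1 + h = z + h + 1 by ring, periodic_avg hm.hA.per h _]
  refine le_of_forall_pos_le_add fun δ hδ => ?_
  set σ := fun z => -(s z (f z) * (f' z / Real.sqrt (f' z ^ 2 + δ ^ 2))) with hσ
  have hne : ∀ z, 0 < Real.sqrt (f' z ^ 2 + δ ^ 2) := fun z => Real.sqrt_pos.2 (by positivity)
  have hσc : Continuous σ := by
    refine (hsc.mul (hf'c.div (by fun_prop) fun z => (hne z).ne')).neg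
  have key := hm.lin.smooth hm.hA hm.hΛ hh (c := fun z => c z (f z)) (σ := σ) hcc
    (fun z => by simp [hfp z, hcp]) hσc (fun z => by simp [σ, hfp z, hf'p z, hsp])
    (fun z => hc0 _ _) (fun z => by
      refine le_trans ?_ (hcs z (f z))
      have : (f' z / Real.sqrt (f' z ^ 2 + δ ^ 2)) ^ 2 ≤ 1 := by
        rw [div_pow, Real.sq_sqrt (by positivity), div_le_one (by positivity)]
        linarith [sq_nonneg δ]
      simp only [σ, neg_sq, mul_pow]
      nlinarith [mul_le_mul_of_nonneg_left this (sq_nonneg (s z (f z)))])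
  have hle : ∫ z in (0 : ℝ)..1, (s z (f z) * |f' z| - δ) ≤
      ∫ z in (0 : ℝ)..1, -(σ z * f' z) := by
    refine integral_mono_on zero_le_one
      (((hsc.mul hf'c.abs).sub continuous_const).intervalIntegrable _ _)
      ((hσc.mul hf'c).neg.intervalIntegrable _ _) fun z _ => ?_
    have h1 : |f' z| - δ ≤ f' z ^ 2 / Real.sqrt (f' z ^ 2 + δ ^ 2) := by
      rw [le_div_iff₀ (hne z)]
      have h2 : Real.sqrt (f' z ^ 2 + δ ^ 2) ≤ |f' z| + δ := by
        rw [Real.sqrt_le_left (by positivity)]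
        nlinarith [sq_abs (f' z), abs_nonneg (f' z)]
      rcases le_total δ |f' z| with h3 | h3
      · nlinarith [mul_le_mul_of_nonneg_left h2 (sub_nonneg.2 h3), sq_abs (f' z)]
      · nlinarith [mul_nonneg (sub_nonneg.2 h3) (hne z).le, sq_nonneg (f' z)]
    have h0 := hs0 z (f z)
    have h4 : s z (f z) ≤ 1 := by nlinarith [hcs z (f z), sq_nonneg (c z (f z))]
    calc s z (f z) * |f' z| - δ ≤ s z (f z) * (|f' z| - δ) := by nlinarith
      _ ≤ s z (f z) * (f' z ^ 2 / Real.sqrt (f' z ^ 2 + δ ^ 2)) :=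
          mul_le_mul_of_nonneg_left h1 h0
      _ = -(σ z * f' z) := by simp only [σ]; ring
  rw [intervalIntegral.integral_sub (Continuous.intervalIntegrable (by fun_prop) _ _)
    intervalIntegrable_const, intervalIntegral.integral_neg, intervalIntegral.integral_const] at hle
  simp only [sub_zero, one_smul] at hle
  simp only [smoothed] at key hle ⊢
  linarith

/-- Values of a continuous weight pass to the limit. -/
theorem Marg.tendsto_integral (hm : Marg A Λ P) {u : ℝ → ℝ → ℝ}
    (hu : Continuous (Function.uncurry u)) {B : ℝ} (hB : ∀ z y, |u z y| ≤ B) :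
    Tendsto (fun h => ∫ z in (0 : ℝ)..1, u z (smoothed h A z) * smoothed h Λ z) (𝓝[>] 0)
      (𝓝 (∫ z in (0 : ℝ)..1, u z (A z) * Λ z)) := by
  refine intervalIntegral.tendsto_integral_filter_of_dominated_convergence (fun _ => B * 4) ?_ ?_
    intervalIntegrable_const ?_
  · refine Eventually.of_forall fun h => Continuous.aestronglyMeasurable ?_
    have h1 : Continuous (smoothed h A) :=
      continuous_avg (continuous_avg hm.hA.intervalIntegrable h).intervalIntegrable h
    exact (hu.comp (continuous_id.prodMk h1)).mul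
      (continuous_avg (continuous_avg hm.hΛ.intervalIntegrable h).intervalIntegrable h)
  · filter_upwards [self_mem_nhdsWithin] with h (hh : 0 < h)
    refine Eventually.of_forall fun z _ => ?_
    rw [Real.norm_eq_abs, abs_mul]
    exact mul_le_mul (hB _ _) (abs_avg_le (hm.hΛ.avg hh) hh z) (abs_nonneg _)
      (le_trans (abs_nonneg _) (hB 0 0))
  · filter_upwards [ae_tendsto_smoothed hm.hA, ae_tendsto_smoothed hm.hΛ] with z hz hz' _
    exact ((hu.tendsto (z, A z)).comp (tendsto_const_nhds.prodMk_nhds hz)).mul hz'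

/-- Change of variables along a smoothed marginal. -/
theorem abs_integral_le_total {M h : ℝ} (hA : BddPer A M) {k : ℝ → ℝ} (hk : Continuous k)
    (hk0 : ∀ y, 0 ≤ k y) {w : ℝ → ℝ}
    {p q : ℝ} (hpq : p ≤ q) (hw1 : ∀ z ∈ Icc p q, w z = 1) :
    |∫ y in smoothed h A p..smoothed h A q, k y| ≤
      ∫ z in p..q, w z * k (smoothed h A z) * |h⁻¹ * (avg h A (z + h) - avg h A z)| := by
  have hd := fun z => hasDerivAt_smoothed hA h z
  have hc := continuous_deriv_smoothed hA h
  rw [← intervalIntegral.integral_comp_mul_deriv (fun z _ => hd z) hc.continuousOn hk]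
  refine (intervalIntegral.abs_integral_le_integral_abs hpq).trans
    (le_of_eq (intervalIntegral.integral_congr fun z hz => ?_))
  rw [uIcc_of_le hpq] at hz
  simp only [Function.comp_apply, abs_mul, abs_of_nonneg (hk0 _), hw1 z hz, one_mul]

/-- The variation over a period, seen from two points. -/
theorem two_mul_abs_le {M h : ℝ} (hA : BddPer A M) {k : ℝ → ℝ} (hk : Continuous k)
    (hk0 : ∀ y, 0 ≤ k y) {p q : ℝ} (hpq : p ≤ q) (hq : q ≤ p + 1) :
    2 * |∫ y in smoothed h A p..smoothed h A q, k y| ≤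
      ∫ z in (0 : ℝ)..1, k (smoothed h A z) * |h⁻¹ * (avg h A (z + h) - avg h A z)| := by
  set F := fun z => k (smoothed h A z) * |h⁻¹ * (avg h A (z + h) - avg h A z)| with hF
  have hp1 : Function.Periodic (smoothed h A) 1 := periodic_avg (periodic_avg hA.per h) h
  have hFc : Continuous F := (hk.comp (continuous_avg
    (continuous_avg hA.intervalIntegrable h).intervalIntegrable h)).mul
      (continuous_deriv_smoothed hA h).abs
  have hFp : Function.Periodic F 1 := fun z => by
    simp only [F, hp1 z, show z + 1 + h = z + h + 1 by ring, periodic_avg hA.per h _]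
  have h1 := abs_integral_le_total (h := h) hA hk hk0 (w := fun _ => 1) hpq (fun _ _ => rfl)
  have h2 := abs_integral_le_total (h := h) hA hk hk0 (w := fun _ => 1) hq (fun _ _ => rfl)
  rw [hp1 p, intervalIntegral.integral_symm, abs_neg] at h2
  simp only [one_mul] at h1 h2
  have e : ∫ z in (0 : ℝ)..1, F z = (∫ z in p..q, F z) + ∫ z in q..p + 1, F z := by
    rw [integral_add_adjacent_intervals (hFc.intervalIntegrable _ _) (hFc.intervalIntegrable _ _),
      hFp.intervalIntegral_add_eq p 0, zero_add]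
  show _ ≤ ∫ z in (0 : ℝ)..1, F z
  rw [e]
  linarith

/-- The inequality between two Lebesgue points. -/
theorem Marg.value (hm : Marg A Λ P) {c s : ℝ → ℝ} (hc : Continuous c) (hs : Continuous s)
    (hc0 : ∀ y, 0 ≤ c y) (hs0 : ∀ y, 0 ≤ s y) (hcs : ∀ y, c y ^ 2 + s y ^ 2 ≤ 1)
    {p q : ℝ} (hp : Good A p) (hq : Good A q) (hpq : p ≤ q) (hq1 : q ≤ p + 1) :
    (∫ z in (0 : ℝ)..1, c (A z) * Λ z) + 2 * |∫ y in A p..A q, s y| ≤ P := by
  have hcb : ∀ y, |c y| ≤ 1 := fun y => by
    rw [abs_of_nonneg (hc0 y)]; nlinarith [hcs y, sq_nonneg (s y)]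
  have hF := intervalIntegral.continuous_primitive
    (fun a b => hs.intervalIntegrable (μ := volume) a b) 0
  have h2 : Tendsto (fun h => |∫ y in smoothed h A p..smoothed h A q, s y|) (𝓝[>] 0)
      (𝓝 |∫ y in A p..A q, s y|) := by
    have := (((hF.tendsto (A q)).comp hq).sub ((hF.tendsto (A p)).comp hp)).abs
    simpa [integral_interval_sub_left (hs.intervalIntegrable _ _) (hs.intervalIntegrable _ _)]
      using this
  refine le_of_tendsto ((hm.tendsto_integral (u := fun _ y => c y)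
    (hc.comp continuous_snd) (fun _ y => hcb y)).add (h2.const_mul 2)) ?_
  filter_upwards [self_mem_nhdsWithin] with h (hh : 0 < h)
  refine le_trans (add_le_add le_rfl (two_mul_abs_le hm.hA hs hs0 hpq hq1)) ?_
  exact hm.pair hh (c := fun _ y => c y) (s := fun _ y => s y) (hc.comp continuous_snd)
    (hs.comp continuous_snd) (fun _ _ => rfl) (fun _ _ => rfl) (fun _ => hc0) (fun _ => hs0)
    (fun _ => hcs)

/-- The essential range. -/
structure EssRange (A : ℝ → ℝ) (a b : ℝ) : Prop where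
  mem : ∀ᵐ z, A z ∈ Icc a b
  low : ∀ δ > 0, ¬ ∀ᵐ z, a + δ ≤ A z
  high : ∀ δ > 0, ¬ ∀ᵐ z, A z ≤ b - δ

theorem exists_essRange {M : ℝ} (hA : BddPer A M) : ∃ a b : ℝ, EssRange A a b := by
  set S := {t : ℝ | ∀ᵐ z, t ≤ A z} with hS
  set T := {t : ℝ | ∀ᵐ z, A z ≤ t} with hT
  have hSn : S.Nonempty :=
    ⟨-M, show ∀ᵐ z, -M ≤ A z from Eventually.of_forall fun z => (abs_le.1 (hA.bound z)).1⟩
  have hTn : T.Nonempty :=
    ⟨M, show ∀ᵐ z, A z ≤ M from Eventually.of_forall fun z => (abs_le.1 (hA.bound z)).2⟩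
  have hSb : BddAbove S := ⟨M, fun t (ht : ∀ᵐ z, t ≤ A z) => by
    obtain ⟨z, hz⟩ := ht.exists
    exact hz.trans (abs_le.1 (hA.bound z)).2⟩
  have hTb : BddBelow T := ⟨-M, fun t (ht : ∀ᵐ z, A z ≤ t) => by
    obtain ⟨z, hz⟩ := ht.exists
    exact (abs_le.1 (hA.bound z)).1.trans hz⟩
  refine ⟨sSup S, sInf T, ?_, fun δ hδ h => ?_, fun δ hδ h => ?_⟩
  · have h1 : ∀ n : ℕ, ∀ᵐ z, sSup S - 1 / (n + 1) ≤ A z ∧ A z ≤ sInf T + 1 / (n + 1) := fun n => by
      obtain ⟨t, ht, htn⟩ := exists_lt_of_lt_csSup hSn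
        (sub_lt_self (sSup S) (show (0 : ℝ) < 1 / (n + 1) by positivity))
      obtain ⟨t', ht', htn'⟩ := exists_lt_of_csInf_lt hTn
        (lt_add_of_pos_right (sInf T) (show (0 : ℝ) < 1 / (n + 1) by positivity))
      filter_upwards [ht, ht'] with z hz hz'
      exact ⟨by linarith, by linarith⟩
    filter_upwards [ae_all_iff.2 h1] with z hz
    have hlim := tendsto_one_div_add_atTop_nhds_zero_nat (𝕜 := ℝ)
    exact ⟨le_of_tendsto (by simpa using hlim.const_sub (sSup S))
        (Eventually.of_forall fun n => (hz n).1),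
      ge_of_tendsto (by simpa using hlim.const_add (sInf T))
        (Eventually.of_forall fun n => (hz n).2)⟩
  · linarith [le_csSup hSb h]
  · linarith [csInf_le hTb h]

/-- Two Lebesgue points near the ends of the range, within one period. -/
theorem EssRange.exists_pair {a b M : ℝ} (hR : EssRange A a b) (hA : BddPer A M) {δ : ℝ}
    (hδ : 0 < δ) :
    ∃ p q : ℝ, Good A p ∧ Good A q ∧ p ≤ q ∧ q ≤ p + 1 ∧ A p ∈ Icc a (a + δ) ∧
      A q ∈ Icc (b - δ) b := by
  have key : ∀ Q : ℝ → Prop, (¬ ∀ᵐ z, ¬ Q z) → ∃ z, (Good A z ∧ A z ∈ Icc a b) ∧ Q z := by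
    intro Q hQ
    have : ∃ᵐ z, Q z := hQ
    exact ((this.and_eventually ((ae_good hA).and hR.mem)).exists).imp fun z hz => ⟨hz.2, hz.1⟩
  obtain ⟨p, ⟨hp, hpm⟩, hpa⟩ := key (fun z => A z < a + δ) (by simpa [not_lt] using hR.low δ hδ)
  obtain ⟨q, ⟨hq, hqm⟩, hqb⟩ := key (fun z => b - δ < A z) (by simpa [not_lt] using hR.high δ hδ)
  refine ⟨p, q + (-⌊q - p⌋ : ℤ), hp, hq.add_int hA _, ?_, ?_, ⟨hpm.1, hpa.le⟩, ?_⟩
  · push_cast; linarith [Int.floor_le (q - p)]
  · push_cast; linarith [Int.lt_floor_add_one (q - p)]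
  · have e : A (q + ((-⌊q - p⌋ : ℤ) : ℝ)) = A q := by
      simpa using hA.per.int_mul (-⌊q - p⌋) q
    rw [e]
    exact ⟨hqb.le, hqm.2⟩

theorem abs_integral_le_abs_sub {s : ℝ → ℝ} (hs0 : ∀ y, 0 ≤ s y) (hs1 : ∀ y, s y ≤ 1) (u v : ℝ) :
    |∫ y in u..v, s y| ≤ |v - u| := by
  simpa using intervalIntegral.norm_integral_le_of_norm_le_const (a := u) (b := v) (C := (1 : ℝ))
    (f := s) fun y _ => by rw [Real.norm_of_nonneg (hs0 y)]; exact hs1 y

/-- The inequality over the essential range. -/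
theorem Marg.valueRange (hm : Marg A Λ P) {a b : ℝ} (hR : EssRange A a b) {c s : ℝ → ℝ}
    (hc : Continuous c) (hs : Continuous s) (hc0 : ∀ y, 0 ≤ c y) (hs0 : ∀ y, 0 ≤ s y)
    (hcs : ∀ y, c y ^ 2 + s y ^ 2 ≤ 1) :
    (∫ z in (0 : ℝ)..1, c (A z) * Λ z) + 2 * ∫ y in a..b, s y ≤ P := by
  refine le_of_forall_pos_le_add fun e he => ?_
  obtain ⟨p, q, hp, hq, hpq, hq1, hpa, hqb⟩ := hR.exists_pair hm.hA (δ := e / 4) (by linarith)
  have h := hm.value hc hs hc0 hs0 hcs hp hq hpq hq1
  have hi := fun u v => hs.intervalIntegrable (μ := volume) u v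
  have e1 : ∫ y in a..b, s y =
      (∫ y in a..A p, s y) + (∫ y in A p..A q, s y) + ∫ y in A q..b, s y := by
    rw [integral_add_adjacent_intervals (hi _ _) (hi _ _),
      integral_add_adjacent_intervals (hi _ _) (hi _ _)]
  have hs1 : ∀ y, s y ≤ 1 := fun y => by nlinarith [hcs y, sq_nonneg (c y), hs0 y]
  have b1 := (le_abs_self _).trans (abs_integral_le_abs_sub hs0 hs1 a (A p))
  have b2 := (le_abs_self _).trans (abs_integral_le_abs_sub hs0 hs1 (A q) b)
  have d1 : |A p - a| ≤ e / 4 := abs_le.2 ⟨by linarith [hpa.1], by linarith [hpa.2]⟩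
  have d2 : |b - A q| ≤ e / 4 := abs_le.2 ⟨by linarith [hqb.2], by linarith [hqb.1]⟩
  linarith [le_abs_self (∫ y in A p..A q, s y)]

/-- A periodic cutoff equal to one on `[p, q]`. -/
def bump (p q η z : ℝ) : ℝ :=
  max 0 (min 1 (1 + (Real.cos (2 * π * (z - (p + q) / 2)) - Real.cos (π * (q - p))) / η))

theorem bump_eq_one {p q η z : ℝ} (hη : 0 < η) (hq : q ≤ p + 1) (hz : z ∈ Icc p q) :
    bump p q η z = 1 := by
  have : Real.cos (π * (q - p)) ≤ Real.cos (2 * π * (z - (p + q) / 2)) := by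
    rw [← Real.cos_abs (2 * π * (z - (p + q) / 2))]
    refine Real.cos_le_cos_of_nonneg_of_le_pi (abs_nonneg _) ?_ ?_
    · nlinarith [Real.pi_pos]
    · rw [abs_mul, abs_of_pos (show 0 < 2 * π by positivity)]
      have : |z - (p + q) / 2| ≤ (q - p) / 2 :=
        abs_le.2 ⟨by linarith [hz.1], by linarith [hz.2]⟩
      nlinarith [Real.pi_pos]
  simp [bump, min_eq_left (le_add_of_nonneg_right (div_nonneg (sub_nonneg.2 this) hη.le))]

theorem tendsto_bump {p q z : ℝ} (hpq : p ≤ q) (hz : q < z) (hz1 : z < p + 1) :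
    Tendsto (fun η => bump p q η z) (𝓝[>] 0) (𝓝 0) := by
  have hcos : Real.cos (2 * π * (z - (p + q) / 2)) < Real.cos (π * (q - p)) := by
    rcases le_or_gt (2 * π * (z - (p + q) / 2)) π with h | h
    · exact Real.cos_lt_cos_of_nonneg_of_le_pi (by nlinarith [Real.pi_pos]) h
        (by nlinarith [Real.pi_pos])
    · rw [show Real.cos (2 * π * (z - (p + q) / 2)) =
        Real.cos (2 * π - 2 * π * (z - (p + q) / 2)) from (Real.cos_two_pi_sub _).symm]
      exact Real.cos_lt_cos_of_nonneg_of_le_pi (by nlinarith [Real.pi_pos]) (by linarith)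
        (by nlinarith [Real.pi_pos])
  refine tendsto_const_nhds.congr' ?_
  have hd : 0 < Real.cos (π * (q - p)) - Real.cos (2 * π * (z - (p + q) / 2)) := sub_pos.2 hcos
  filter_upwards [Ioo_mem_nhdsGT hd] with η hη
  have : 1 + (Real.cos (2 * π * (z - (p + q) / 2)) - Real.cos (π * (q - p))) / η ≤ 0 := by
    rw [one_add_div hη.1.ne']
    exact div_nonpos_of_nonpos_of_nonneg (by linarith [hη.2]) hη.1.le
  simp [bump, min_eq_right (this.trans zero_le_one), max_eq_left this]

theorem periodic_bump (p q η : ℝ) : Function.Periodic (bump p q η) 1 := fun z => by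
  simp only [bump]
  rw [show 2 * π * (z + 1 - (p + q) / 2) = 2 * π * (z - (p + q) / 2) + 2 * π by ring,
    Real.cos_add_two_pi]

/-- A calibration `c, s` that attains `P`, and the product `c s Λ` as a function of `A`. -/
structure Exact (A Λ : ℝ → ℝ) (P a b : ℝ) (c s q F : ℝ → ℝ) : Prop where
  marg : Marg A Λ P
  range : EssRange A a b
  hc : Continuous c
  hs : Continuous s
  c0 : ∀ y, 0 ≤ c y
  s0 : ∀ y, 0 ≤ s y
  cs : ∀ y, c y ^ 2 + s y ^ 2 ≤ 1
  hF : Continuous F
  prod : ∀ᵐ z, c (A z) * s (A z) * Λ z = F (A z)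
  hq : Continuous q
  q_eq : ∀ y ∈ Icc a b, q y = c y ^ 2
  value : P ≤ (∫ z in (0 : ℝ)..1, c (A z) * Λ z) + 2 * ∫ y in a..b, s y

variable {a b : ℝ} {c s q F : ℝ → ℝ}

/-- The first variation, with a periodic weight equal to one on `[p, r]`. -/
theorem Exact.first_variation (h : Exact A Λ P a b c s q F) {ψ : ℝ → ℝ} (hψ : Continuous ψ)
    (hψp : Function.Periodic ψ 1) (hψ0 : ∀ z, 0 ≤ ψ z) (hψ1 : ∀ z, ψ z ≤ 1) {p r : ℝ}
    (hp : Good A p) (hr : Good A r) (hpr : p ≤ r) (hr1 : r ≤ p + 1)
    (hone : ∀ z ∈ Icc p r, ψ z = 1) :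
    |∫ y in A p..A r, c y ^ 2| ≤ ∫ z in (0 : ℝ)..1, ψ z * F (A z) := by
  have hm := h.marg
  have hc := h.hc
  have hs := h.hs
  have hc1 : ∀ y, c y ≤ 1 := fun y => by nlinarith [h.cs y, sq_nonneg (s y), h.c0 y]
  have hs1 : ∀ y, s y ≤ 1 := fun y => by nlinarith [h.cs y, sq_nonneg (c y), h.s0 y]
  set lhs := |∫ y in A p..A r, c y ^ 2|
  set rhs := ∫ z in (0 : ℝ)..1, ψ z * F (A z)
  suffices hh : ∀ ε δ : ℝ, 0 < ε → ε ≤ 1 → 0 < δ → ε * (lhs - rhs) ≤ δ + ε ^ 2 * P by
    refine le_of_forall_pos_le_add fun e he => ?_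
    have hP := hm.nonneg
    set ε := min 1 (e / (P + 1))
    have hε : 0 < ε := lt_min one_pos (div_pos he (by linarith))
    have h1 : ε * (lhs - rhs) ≤ ε ^ 2 * P :=
      le_of_forall_pos_le_add fun δ hδ => (hh ε δ hε (min_le_left _ _) hδ).trans_eq (add_comm _ _)
    have h2 : lhs - rhs ≤ ε * P := le_of_mul_le_mul_left (by linarith) hε
    have h3 : ε * (P + 1) ≤ e :=
      (mul_le_mul_of_nonneg_right (min_le_right _ _) (by linarith)).trans_eq
        (div_mul_cancel₀ e (by linarith))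
    nlinarith
  intro ε δ hε hε1 hδ
  obtain ⟨p₀, q₀, hp₀, hq₀, hpq₀, hq1₀, hpa, hqb⟩ :=
    h.range.exists_pair hm.hA (δ := δ / 4) (by linarith)
  set N := Real.sqrt (1 + ε ^ 2)
  have hN : 1 ≤ N := Real.one_le_sqrt.2 (le_add_of_nonneg_right (sq_nonneg ε))
  set cc : ℝ → ℝ → ℝ := fun z y => c y * (1 - ε * (ψ z * s y)) / N
  set ss : ℝ → ℝ → ℝ := fun z y => (s y + ε * (ψ z * c y ^ 2)) / N
  have hψs : ∀ z y, ε * (ψ z * s y) ≤ 1 := fun z y =>
    mul_le_one₀ hε1 (mul_nonneg (hψ0 z) (h.s0 y)) (mul_le_one₀ (hψ1 z) (h.s0 y) (hs1 y))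
  have hpair := fun (t : ℝ) (ht : 0 < t) => hm.pair ht (c := cc) (s := ss)
    (by show Continuous fun x : ℝ × ℝ => cc x.1 x.2
        simp only [cc]; fun_prop)
    (by show Continuous fun x : ℝ × ℝ => ss x.1 x.2
        simp only [ss]; fun_prop)
    (fun z y => by simp [cc, hψp z]) (fun z y => by simp [ss, hψp z])
    (fun z y => div_nonneg (mul_nonneg (h.c0 y) (sub_nonneg.2 (hψs z y))) (by linarith))
    (fun z y => div_nonneg (add_nonneg (h.s0 y)
      (mul_nonneg hε.le (mul_nonneg (hψ0 z) (sq_nonneg _)))) (by linarith))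
    (fun z y => by
      simp only [cc, ss, div_pow, N, Real.sq_sqrt (show (0 : ℝ) ≤ 1 + ε ^ 2 by positivity),
        ← add_div, div_le_one (show (0 : ℝ) < 1 + ε ^ 2 by positivity)]
      have e1 : (c y * (1 - ε * (ψ z * s y))) ^ 2 + (s y + ε * (ψ z * c y ^ 2)) ^ 2 =
          (c y ^ 2 + s y ^ 2) + ε ^ 2 * ((ψ z * c y) ^ 2 * (c y ^ 2 + s y ^ 2)) := by ring
      rw [e1]
      refine add_le_add (h.cs y) (mul_le_of_le_one_right (sq_nonneg ε) ?_)
      refine mul_le_one₀ ?_ (by positivity) (h.cs y)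
      exact pow_le_one₀ (mul_nonneg (hψ0 z) (h.c0 y)) (mul_le_one₀ (hψ1 z) (h.c0 y) (hc1 y)))
  have i1 := hm.tendsto_integral (u := fun _ y => c y) (hc.comp continuous_snd) (B := 1)
    (fun _ y => by rw [abs_of_nonneg (h.c0 y)]; exact hc1 y)
  have i2 := hm.tendsto_integral (u := fun z y => ψ z * (c y * s y))
    (by show Continuous fun x : ℝ × ℝ => ψ x.1 * (c x.2 * s x.2); fun_prop) (B := 1)
    (fun z y => by
      rw [abs_of_nonneg (mul_nonneg (hψ0 z) (mul_nonneg (h.c0 y) (h.s0 y)))]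
      exact mul_le_one₀ (hψ1 z) (mul_nonneg (h.c0 y) (h.s0 y))
        (mul_le_one₀ (hc1 y) (h.s0 y) (hs1 y)))
  have hc2 : Continuous fun y => c y ^ 2 := hc.pow 2
  have hS := intervalIntegral.continuous_primitive
    (fun u v => hs.intervalIntegrable (μ := volume) u v) 0
  have hC := intervalIntegral.continuous_primitive
    (fun u v => hc2.intervalIntegrable (μ := volume) u v) 0
  have i3 : Tendsto (fun t => |∫ y in smoothed t A p₀..smoothed t A q₀, s y|) (𝓝[>] 0)
      (𝓝 |∫ y in A p₀..A q₀, s y|) := by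
    have := (((hS.tendsto (A q₀)).comp hq₀).sub ((hS.tendsto (A p₀)).comp hp₀)).abs
    simpa [integral_interval_sub_left (hs.intervalIntegrable _ _) (hs.intervalIntegrable _ _)]
      using this
  have i4 : Tendsto (fun t => |∫ y in smoothed t A p..smoothed t A r, c y ^ 2|) (𝓝[>] 0)
      (𝓝 lhs) := by
    have := (((hC.tendsto (A r)).comp hr).sub ((hC.tendsto (A p)).comp hp)).abs
    simpa [lhs, integral_interval_sub_left (hc2.intervalIntegrable _ _)
      (hc2.intervalIntegrable _ _)] using this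
  have erhs : ∫ z in (0 : ℝ)..1, ψ z * (c (A z) * s (A z)) * Λ z = rhs := by
    refine intervalIntegral.integral_congr_ae ?_
    filter_upwards [h.prod] with z hz _
    rw [← hz]; ring
  rw [erhs] at i2
  have hev : ∀ᶠ t in 𝓝[>] (0 : ℝ), (∫ z in (0 : ℝ)..1, c (smoothed t A z) * smoothed t Λ z) +
      2 * |∫ y in smoothed t A p₀..smoothed t A q₀, s y| +
        ε * (|∫ y in smoothed t A p..smoothed t A r, c y ^ 2| -
          ∫ z in (0 : ℝ)..1, ψ z * (c (smoothed t A z) * s (smoothed t A z)) * smoothed t Λ z) ≤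
      N * P := by
    filter_upwards [self_mem_nhdsWithin] with t (ht : 0 < t)
    set f := smoothed t A
    set g := smoothed t Λ
    set d := fun z => |t⁻¹ * (avg t A (z + t) - avg t A z)|
    have hfc : Continuous f :=
      continuous_avg (continuous_avg hm.hA.intervalIntegrable t).intervalIntegrable t
    have hgc : Continuous g :=
      continuous_avg (continuous_avg hm.hΛ.intervalIntegrable t).intervalIntegrable t
    have hdc : Continuous d := (continuous_deriv_smoothed hm.hA t).abs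
    have hd0 : ∀ z, 0 ≤ d z := fun z => abs_nonneg _
    have k1 := two_mul_abs_le (h := t) hm.hA hs h.s0 hpq₀ hq1₀
    have k2 : |∫ y in f p..f r, c y ^ 2| ≤ ∫ z in (0 : ℝ)..1, ψ z * c (f z) ^ 2 * d z := by
      refine (abs_integral_le_total (h := t) hm.hA hc2 (fun y => sq_nonneg _) hpr
        hone).trans ?_
      have hp1 : Function.Periodic (fun z => ψ z * c (f z) ^ 2 * d z) 1 := fun z => by
        simp only [d, f, hψp z, smoothed, periodic_avg (periodic_avg hm.hA.per t) t z,
          show z + 1 + t = z + t + 1 by ring, periodic_avg hm.hA.per t _]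
      have hcd : Continuous fun z => ψ z * c (f z) ^ 2 * d z := by fun_prop
      rw [show (∫ z in (0 : ℝ)..1, ψ z * c (f z) ^ 2 * d z) =
        ∫ z in p..p + 1, ψ z * c (f z) ^ 2 * d z by rw [hp1.intervalIntegral_add_eq p 0, zero_add],
        ← integral_add_adjacent_intervals (hcd.intervalIntegrable p r)
          (hcd.intervalIntegrable r (p + 1))]
      exact le_add_of_nonneg_right (integral_nonneg hr1 fun z _ =>
        mul_nonneg (mul_nonneg (hψ0 z) (sq_nonneg _)) (hd0 z))
    have k3 := mul_le_mul_of_nonneg_left (hpair t ht) (show (0 : ℝ) ≤ N by linarith)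
    have e : N * ((∫ z in (0 : ℝ)..1, cc z (f z) * g z) + ∫ z in (0 : ℝ)..1, ss z (f z) * d z) =
        (∫ z in (0 : ℝ)..1, c (f z) * g z) + (∫ z in (0 : ℝ)..1, s (f z) * d z) +
          ε * ((∫ z in (0 : ℝ)..1, ψ z * c (f z) ^ 2 * d z) -
            ∫ z in (0 : ℝ)..1, ψ z * (c (f z) * s (f z)) * g z) := by
      have hN0 : N ≠ 0 := (zero_lt_one.trans_le hN).ne'
      rw [mul_add, ← intervalIntegral.integral_const_mul, ← intervalIntegral.integral_const_mul]
      have e1 : ∀ z, N * (cc z (f z) * g z) =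
          c (f z) * g z - ε * (ψ z * (c (f z) * s (f z)) * g z) := fun z => by
        simp only [cc]; field_simp
      have e2 : ∀ z, N * (ss z (f z) * d z) =
          s (f z) * d z + ε * (ψ z * c (f z) ^ 2 * d z) := fun z => by
        simp only [ss]; field_simp
      simp only [e1, e2]
      rw [intervalIntegral.integral_sub (Continuous.intervalIntegrable (by fun_prop) _ _)
          (Continuous.intervalIntegrable (by fun_prop) _ _),
        intervalIntegral.integral_add (Continuous.intervalIntegrable (by fun_prop) _ _)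
          (Continuous.intervalIntegrable (by fun_prop) _ _),
        intervalIntegral.integral_const_mul, intervalIntegral.integral_const_mul]
      ring
    rw [e] at k3
    nlinarith [mul_le_mul_of_nonneg_left k2 hε.le]
  have hlim := le_of_tendsto ((i1.add (i3.const_mul 2)).add ((i4.sub i2).const_mul ε)) hev
  have hval := h.value
  have hi := fun u v => hs.intervalIntegrable (μ := volume) u v
  have e1 : ∫ y in a..b, s y =
      (∫ y in a..A p₀, s y) + (∫ y in A p₀..A q₀, s y) + ∫ y in A q₀..b, s y := by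
    rw [integral_add_adjacent_intervals (hi _ _) (hi _ _),
      integral_add_adjacent_intervals (hi _ _) (hi _ _)]
  have b1 := (le_abs_self _).trans (abs_integral_le_abs_sub h.s0 hs1 a (A p₀))
  have b2 := (le_abs_self _).trans (abs_integral_le_abs_sub h.s0 hs1 (A q₀) b)
  have d1 : |A p₀ - a| ≤ δ / 4 := abs_le.2 ⟨by linarith [hpa.1], by linarith [hpa.2]⟩
  have d2 : |b - A q₀| ≤ δ / 4 := abs_le.2 ⟨by linarith [hqb.2], by linarith [hqb.1]⟩
  have hNP : N * P ≤ (1 + ε ^ 2) * P := by
    refine mul_le_mul_of_nonneg_right ?_ hm.nonneg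
    exact Real.sqrt_le_iff.2 ⟨by positivity, by nlinarith [sq_nonneg ε, sq_nonneg (ε ^ 2)]⟩
  nlinarith [le_abs_self (∫ y in A p₀..A q₀, s y)]

/-- `G(A)`, `G' = q`, is Lipschitz with constant `F(A)`. -/
theorem Exact.lip (h : Exact A Λ P a b c s q F) {p r : ℝ} (hp : Good A p) (hr : Good A r)
    (hpm : A p ∈ Icc a b) (hrm : A r ∈ Icc a b) (hpr : p ≤ r) (hr1 : r ≤ p + 1) :
    |∫ y in A p..A r, q y| ≤ ∫ z in p..r, F (A z) := by
  have e : ∫ y in A p..A r, q y = ∫ y in A p..A r, c y ^ 2 :=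
    intervalIntegral.integral_congr fun y hy => h.q_eq y (ordConnected_Icc.uIcc_subset hpm hrm hy)
  rw [e]
  obtain ⟨B, hB⟩ := isCompact_Icc.exists_bound_of_continuousOn
    (h.hF.continuousOn (s := Icc (-1 : ℝ) 1))
  have hFA : BddPer (fun z => F (A z)) B :=
    ⟨h.hF.measurable.comp h.marg.hA.meas, fun z => by simp [h.marg.hA.per z],
      fun z => by simpa using hB _ (abs_le.1 (h.marg.hA.bound z))⟩
  have hi := fun u v => hFA.intervalIntegrable u v
  set J := fun z => (Ioc p r).indicator (fun z => F (A z)) z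
  have hlim : Tendsto (fun η => ∫ z in p..p + 1, bump p r η z * F (A z)) (𝓝[>] 0)
      (𝓝 (∫ z in p..p + 1, J z)) := by
    refine intervalIntegral.tendsto_integral_filter_of_dominated_convergence (fun _ => B) ?_ ?_
      intervalIntegrable_const ?_
    · refine Eventually.of_forall fun η => ?_
      exact ((show Measurable (bump p r η) by unfold bump; fun_prop).mul
        hFA.meas).aestronglyMeasurable
    · refine Eventually.of_forall fun η => Eventually.of_forall fun z _ => ?_
      rw [Real.norm_eq_abs, abs_mul, ← one_mul B]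
      refine mul_le_mul ?_ (hFA.bound z) (abs_nonneg _) zero_le_one
      exact abs_le.2 ⟨le_trans (by norm_num) (le_max_left _ _),
        max_le zero_le_one (min_le_left _ _)⟩
    · filter_upwards [Measure.ae_ne volume (p + 1)] with z hz hzm
      rw [uIoc_of_le (by linarith)] at hzm
      by_cases hzr : z ≤ r
      · simp only [J]
        refine tendsto_const_nhds.congr' ?_
        filter_upwards [self_mem_nhdsWithin] with η (hη : 0 < η)
        rw [bump_eq_one hη hr1 ⟨hzm.1.le, hzr⟩, one_mul,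
          indicator_of_mem (mem_Ioc.2 ⟨hzm.1, hzr⟩)]
      · simp only [J, indicator_of_notMem (fun hh : z ∈ Ioc p r => hzr hh.2)]
        simpa using (tendsto_bump hpr (not_le.1 hzr) (lt_of_le_of_ne hzm.2 hz)).mul_const (F (A z))
  have hJ : ∫ z in p..p + 1, J z = ∫ z in p..r, F (A z) := by
    rw [intervalIntegral.integral_of_le (by linarith), intervalIntegral.integral_of_le hpr,
      show (∫ z in Ioc p (p + 1), J z) = ∫ z in Ioc p (p + 1),
        (Ioc p r).indicator (fun z => F (A z)) z from rfl,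
      MeasureTheory.integral_indicator measurableSet_Ioc, Measure.restrict_restrict measurableSet_Ioc,
      inter_eq_left.2 (Ioc_subset_Ioc_right hr1)]
  rw [← hJ]
  refine ge_of_tendsto hlim ?_
  filter_upwards [self_mem_nhdsWithin] with η (hη : 0 < η)
  have hp1 : Function.Periodic (fun z => bump p r η z * F (A z)) 1 := fun z => by
    simp only [periodic_bump p r η z, h.marg.hA.per z]
  rw [hp1.intervalIntegral_add_eq p 0, zero_add]
  exact h.first_variation (by unfold bump; fun_prop) (periodic_bump p r η)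
    (fun z => le_max_left _ _) (fun z => max_le zero_le_one (min_le_left _ _)) hp hr hpr hr1
    fun z hz => bump_eq_one hη hr1 hz

end Vale.Agent.P232.Rigid.Circle
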