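import Vale.Agent.P232.Rigid.Spec
import Vale.Agent.P232.Rigid.Circle.Compare

/-!
# P232 rigidity: the side data as a marginal, and the candidate profiles
-/

open MeasureTheory Set Filter intervalIntegral
open scoped Topology Interval NNReal Real

noncomputable section

namespace Vale.Agent.P232.Rigid.Circle

theorem shapeLen_nonneg (n : ℕ) (x : ℝ) : 0 ≤ shapeLen n x := by
  unfold shapeLen; split_ifs <;> positivity

theorem measurable_shapeLen (n : ℕ) : Measurable (shapeLen n) := by
  unfold shapeLen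
  split_ifs
  · fun_prop
  · exact Measurable.ite measurableSet_Ioi measurable_const measurable_const
  · exact measurable_const

theorem shapeLen_le (n : ℕ) {x : ℝ} (hx : x ∈ Icc (0 : ℝ) 1) : shapeLen n x ≤ 4 := by
  unfold shapeLen
  split_ifs <;> norm_num
  have h1 : π * min x (1 - x) ≤ 4 := by
    have := min_le_left x (1 - x)
    nlinarith [Real.pi_le_four, Real.pi_pos, hx.1, hx.2, le_min hx.1 (sub_nonneg.2 hx.2)]
  have : Real.sqrt (π * min x (1 - x)) ≤ 2 := by
    rw [Real.sqrt_le_left (by norm_num)]; linarith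
  linarith

theorem marg_of_side {n : ℕ} {V : ℝ} {A : ℝ → ℝ} (h : SideData n V A) :
    Marg A (fun t => shapeLen n (A t)) (candidate V) := by
  have hA : BddPer A 1 := ⟨h.measurable, h.periodic, fun z =>
    abs_le.2 ⟨le_trans (by norm_num) (h.mem z).1, (h.mem z).2⟩⟩
  have hΛ : BddPer (fun t => shapeLen n (A t)) 4 :=
    ⟨(measurable_shapeLen n).comp h.measurable, fun z => by simp only [h.periodic z],
      fun z => by rw [abs_of_nonneg (shapeLen_nonneg n _)]; exact shapeLen_le n (h.mem z)⟩
  refine ⟨hA, hΛ, fun z => shapeLen_nonneg n _, fun c σ hc hcp hσ hσp hc0 hcs => ?_⟩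
  have := h.lin c σ hc hσ hcp hσp hc0 hcs
  rwa [intervalIntegral.integral_add
    ((hΛ.intervalIntegrable 0 1).continuousOn_mul hc.continuousOn)
    ((hA.intervalIntegrable 0 1).continuousOn_mul
      (hσ.continuous_deriv le_rfl).continuousOn)] at this

theorem EssRange.bounds {n : ℕ} {V : ℝ} {A : ℝ → ℝ} (h : SideData n V A) {a b : ℝ}
    (hR : EssRange A a b) : 0 ≤ a ∧ a ≤ V ∧ V ≤ b ∧ b ≤ 1 := by
  have hi : IntervalIntegrable A volume 0 1 := (marg_of_side h).hA.intervalIntegrable 0 1
  refine ⟨not_lt.1 fun ha => ?_, ?_, ?_, not_lt.1 fun hb => ?_⟩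
  · exact hR.low (-a) (neg_pos.2 ha) (Eventually.of_forall fun z => by simpa using (h.mem z).1)
  · simpa [h.mass] using integral_mono_ae zero_le_one intervalIntegrable_const hi
      (hR.mem.mono fun z hz => hz.1)
  · simpa [h.mass] using integral_mono_ae zero_le_one hi intervalIntegrable_const
      (hR.mem.mono fun z hz => hz.2)
  · exact hR.high (b - 1) (sub_pos.2 hb) (Eventually.of_forall fun z => by simpa using (h.mem z).2)

/-- A marginal equal to a constant with full length is not a minimiser. -/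
theorem not_const {n : ℕ} {V : ℝ} {A : ℝ → ℝ} (h : SideData n V A) (hV : 0 < V)
    (hI : candidate V ≤ ∫ t in (0 : ℝ)..1, shapeLen n (A t)) : False := by
  set I := ∫ t in (0 : ℝ)..1, shapeLen n (A t)
  set P := candidate V
  have hP : 0 ≤ P := (marg_of_side h).nonneg
  set e := V / (P + 1) with he
  have he0 : 0 < e := div_pos hV (by linarith)
  set N := Real.sqrt (1 + e ^ 2)
  have hN : 0 < N := Real.sqrt_pos.2 (by positivity)
  have hv := h.vert (1 / N) (e / N) (by positivity) (by positivity) (by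
    rw [div_pow, div_pow, ← add_div, Real.sq_sqrt (by positivity), one_pow,
      div_le_one (by positivity)])
  have hN1 : N ≤ 1 + e ^ 2 := Real.sqrt_le_iff.2 ⟨by positivity, by nlinarith [sq_nonneg (e ^ 2)]⟩
  have h2 : I + e * (2 * V) ≤ P * N := by
    have := mul_le_mul_of_nonneg_right hv hN.le
    calc I + e * (2 * V) = (1 / N * I + e / N * (2 * V)) * N := by field_simp
      _ ≤ P * N := this
  have h3 : e * (P + 1) = V := div_mul_cancel₀ V (by linarith)
  nlinarith [mul_le_mul_of_nonneg_left hN1 hP, mul_pos he0 hV]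

theorem continuous_intDist : Continuous intDist := by
  refine (LipschitzWith.of_dist_le_mul (K := 1) fun s t => ?_).continuous
  simpa [Real.dist_eq] using abs_intDist_sub s t

/-- A continuous profile above a periodic one with the same mass is equal to it. -/
theorem ae_eq_of_le {A Y B : ℝ → ℝ} (hY : Continuous Y) (hB : Continuous B)
    (hYp : Function.Periodic Y 1) (hBp : Function.Periodic B 1) (hAY : A =ᵐ[volume] Y)
    (hle : ∀ z, B z ≤ Y z) (hint : ∫ z in (0 : ℝ)..1, A z = ∫ z in (0 : ℝ)..1, B z) :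
    A =ᵐ[volume] B := by
  have h1 : ∀ z ∈ Icc (0 : ℝ) 1, Y z = B z := by
    by_contra hcon
    push Not at hcon
    obtain ⟨z, hz, hne⟩ := hcon
    have hpos := intervalIntegral.integral_pos (f := fun t => Y t - B t) zero_lt_one
      (hY.sub hB).continuousOn (fun t _ => sub_nonneg.2 (hle t))
      ⟨z, hz, sub_pos.2 (lt_of_le_of_ne (hle z) (Ne.symm hne))⟩
    rw [intervalIntegral.integral_sub (hY.intervalIntegrable _ _) (hB.intervalIntegrable _ _),
      ← hint, intervalIntegral.integral_congr_ae (hAY.mono fun t ht _ => ht)] at hpos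
    simp at hpos
  have h2 : Y = B := funext fun z => by
    have e1 : Y (Int.fract z) = Y z := by
      rw [Int.fract]
      simpa using hYp.sub_int_mul_eq ⌊z⌋ (x := z)
    have e2 : B (Int.fract z) = B z := by
      rw [Int.fract]
      simpa using hBp.sub_int_mul_eq ⌊z⌋ (x := z)
    rw [← e1, ← e2]
    exact h1 _ ⟨Int.fract_nonneg z, (Int.fract_lt_one z).le⟩
  exact h2 ▸ hAY

/-- Integral over a period of a profile supported in `|t| ≤ R`. -/
theorem integral_profile {φ : ℝ → ℝ} (hφ : Continuous φ) {R : ℝ} (hR : 0 ≤ R) (hR2 : R ≤ 1 / 2)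
    (h0 : ∀ x, x ≤ 0 → φ x = 0) (c : ℝ) :
    ∫ t in (0 : ℝ)..1, φ (R ^ 2 - intDist (t - c) ^ 2) = ∫ t in -R..R, φ (R ^ 2 - t ^ 2) := by
  set f := fun t => φ (R ^ 2 - intDist t ^ 2) with hf
  have hfc : Continuous f := hφ.comp (continuous_const.sub (continuous_intDist.pow 2))
  have hfp : Function.Periodic f 1 := fun t => by simp only [f, intDist_add_one]
  have e1 := intervalIntegral.integral_comp_sub_right (a := (0 : ℝ)) (b := 1) f c
  have e2 : ∫ t in (0 - c)..(1 - c), f t = ∫ t in (-(1 / 2 : ℝ))..(1 / 2), f t := by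
    rw [show (1 : ℝ) - c = (0 - c) + 1 by ring, show (1 / 2 : ℝ) = -(1 / 2) + 1 by norm_num]
    rw [hfp.intervalIntegral_add_eq (0 - c) (-(-(1 / 2) + 1))]
    norm_num
  have e3 : EqOn f (fun t => φ (R ^ 2 - t ^ 2)) (Icc (-(1 / 2)) (1 / 2)) := fun t ht => by
    simp only [f, intDist_eq_abs (abs_le.2 ht), sq_abs]
  have hgc : Continuous fun t => φ (R ^ 2 - t ^ 2) := by fun_prop
  have e4 : ∀ a b : ℝ, a ≤ b → (∀ t ∈ Ioo a b, R ≤ |t|) → ∫ t in a..b, φ (R ^ 2 - t ^ 2) = 0 := by
    intro a b hab h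
    rw [intervalIntegral.integral_congr_Ioo_of_le hab (g := fun _ => (0 : ℝ)) fun t ht => h0 _ ?_]
    · simp
    · nlinarith [h t ht, sq_abs t, abs_nonneg t]
  rw [e1, e2, intervalIntegral.integral_congr (g := fun t => φ (R ^ 2 - t ^ 2))
    (by rw [uIcc_of_le (by norm_num)]; exact e3),
    ← integral_add_adjacent_intervals (b := -R) (hgc.intervalIntegrable _ _)
      (hgc.intervalIntegrable _ _),
    ← integral_add_adjacent_intervals (a := -R) (b := R) (hgc.intervalIntegrable _ _)
      (hgc.intervalIntegrable _ _),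
    e4 (-(1 / 2)) (-R) (by linarith) (fun t ht => by rw [abs_of_neg (by linarith [ht.2])]; linarith [ht.2]),
    e4 R (1 / 2) hR2 (fun t ht => ht.1.le.trans (le_abs_self t))]
  ring

theorem intDist_sub_le (z z₀ : ℝ) : ∃ k : ℤ, |z + k - z₀| = intDist (z - z₀) :=
  ⟨-round (z - z₀), by rw [intDist]; push_cast; congr 1; ring⟩

end Vale.Agent.P232.Rigid.Circle
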