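import Mathlib

/-!
# P232 rigidity: smoothing the calibration inequality of a marginal

`A` and `Λ` are periodic bounded functions on the line with `∫ c Λ + σ' A ≤ P` for all periodic
test pairs. Two averages over intervals of length `h` turn this into the same inequality for a
`C¹` function `f` close to `A`, now with `- σ f'` and any continuous `σ`.
-/

open MeasureTheory Set Filter intervalIntegral
open scoped Topology Interval

noncomputable section

namespace Vale.Agent.P232.Rigid.Circle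

/-- A measurable bounded function of period `1`. -/
structure BddPer (f : ℝ → ℝ) (M : ℝ) : Prop where
  meas : Measurable f
  per : Function.Periodic f 1
  bound : ∀ z, |f z| ≤ M

/-- The calibration inequality for the marginal `A` with slice lengths `Λ`. -/
def LinBound (A Λ : ℝ → ℝ) (P : ℝ) : Prop :=
  ∀ c σ : ℝ → ℝ, Continuous c → Function.Periodic c 1 → ContDiff ℝ 1 σ → Function.Periodic σ 1 →
    (∀ z, 0 ≤ c z) → (∀ z, c z ^ 2 + σ z ^ 2 ≤ 1) →
      (∫ z in (0 : ℝ)..1, c z * Λ z) + ∫ z in (0 : ℝ)..1, deriv σ z * A z ≤ P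

/-- The average over `[z, z + h]`. -/
def avg (h : ℝ) (f : ℝ → ℝ) (z : ℝ) : ℝ := h⁻¹ * ∫ t in z..z + h, f t

theorem BddPer.intervalIntegrable {f : ℝ → ℝ} {M : ℝ} (hf : BddPer f M) (a b : ℝ) :
    IntervalIntegrable f volume a b := by
  rw [intervalIntegrable_iff]
  exact IntegrableOn.of_bound measure_Ioc_lt_top hf.meas.aestronglyMeasurable M
    (Eventually.of_forall fun z => by simpa using hf.bound z)

theorem BddPer.comp_add {f : ℝ → ℝ} {M : ℝ} (hf : BddPer f M) (h : ℝ) :
    BddPer (fun z => f (z + h)) M :=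
  ⟨hf.meas.comp (measurable_id.add_const h), fun z => by simp only [add_right_comm z 1 h, hf.per _],
    fun z => hf.bound _⟩

theorem avg_eq_sub {f : ℝ → ℝ} (hf : ∀ a b : ℝ, IntervalIntegrable f volume a b) (h z : ℝ) :
    avg h f z = h⁻¹ * ((∫ t in (0 : ℝ)..z + h, f t) - ∫ t in (0 : ℝ)..z, f t) := by
  rw [avg, integral_interval_sub_left (hf _ _) (hf _ _)]

theorem continuous_avg {f : ℝ → ℝ} (hf : ∀ a b : ℝ, IntervalIntegrable f volume a b) (h : ℝ) :
    Continuous (avg h f) := by
  have hF := continuous_primitive hf 0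
  exact ((hF.comp (continuous_id.add continuous_const)).sub hF).const_mul h⁻¹ |>.congr fun z =>
    (avg_eq_sub hf h z).symm

theorem periodic_avg {f : ℝ → ℝ} (hf : Function.Periodic f 1) (h : ℝ) :
    Function.Periodic (avg h f) 1 := by
  intro z
  simp only [avg]
  rw [show z + 1 + h = z + h + 1 by ring, ← integral_comp_add_right f 1]
  simp only [hf _]

theorem hasDerivAt_avg {f : ℝ → ℝ} (hf : Continuous f) (h z : ℝ) :
    HasDerivAt (avg h f) (h⁻¹ * (f (z + h) - f z)) z := by
  have hF : ∀ x, HasDerivAt (fun y => ∫ t in (0 : ℝ)..y, f t) (f x) x := fun x =>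
    hf.integral_hasStrictDerivAt 0 x |>.hasDerivAt
  refine (((hF (z + h)).comp_add_const z h).sub (hF z)).const_mul h⁻¹ |>.congr_of_eventuallyEq
    (Eventually.of_forall fun y => avg_eq_sub (fun a b => hf.intervalIntegrable a b) h y)

theorem contDiff_avg {f : ℝ → ℝ} (hf : Continuous f) (h : ℝ) : ContDiff ℝ 1 (avg h f) := by
  refine contDiff_one_iff_deriv.2 ⟨fun z => (hasDerivAt_avg hf h z).differentiableAt, ?_⟩
  have e : deriv (avg h f) = fun z => h⁻¹ * (f (z + h) - f z) :=
    funext fun z => (hasDerivAt_avg hf h z).deriv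
  rw [e]
  fun_prop

theorem avg_mem {f : ℝ → ℝ} {a b h : ℝ} (hf : ∀ x y : ℝ, IntervalIntegrable f volume x y)
    (hh : 0 < h) (ha : ∀ᵐ z, a ≤ f z) (hb : ∀ᵐ z, f z ≤ b) (z : ℝ) :
    avg h f z ∈ Icc a b := by
  have hz : z ≤ z + h := by linarith
  have h1 := integral_mono_ae hz intervalIntegrable_const (hf _ _) ha
  have h2 := integral_mono_ae hz (hf _ _) intervalIntegrable_const hb
  simp only [intervalIntegral.integral_const, add_sub_cancel_left, smul_eq_mul] at h1 h2
  rw [avg, inv_mul_eq_div, mem_Icc, le_div_iff₀ hh, div_le_iff₀ hh]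
  exact ⟨by linarith, by linarith⟩

theorem abs_avg_le {f : ℝ → ℝ} {M h : ℝ} (hf : BddPer f M) (hh : 0 < h) (z : ℝ) :
    |avg h f z| ≤ M :=
  abs_le.2 (mem_Icc.1 (avg_mem hf.intervalIntegrable hh
    (Eventually.of_forall fun x => (abs_le.1 (hf.bound x)).1)
    (Eventually.of_forall fun x => (abs_le.1 (hf.bound x)).2) z))

theorem BddPer.avg {f : ℝ → ℝ} {M h : ℝ} (hf : BddPer f M) (hh : 0 < h) :
    BddPer (avg h f) M :=
  ⟨(continuous_avg hf.intervalIntegrable h).measurable, periodic_avg hf.per h,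
    abs_avg_le hf hh⟩

/-- Averaging forward is adjoint to averaging backward. -/
theorem integral_mul_avg {g f : ℝ → ℝ} {M N : ℝ} (hg : BddPer g N) (hf : BddPer f M) {h : ℝ}
    (hh : 0 ≤ h) :
    ∫ z in (0 : ℝ)..1, g z * avg h f z = ∫ z in (0 : ℝ)..1, avg h g (z - h) * f z := by
  have e1 : ∀ z, g z * Circle.avg h f z = h⁻¹ * ∫ u in (0 : ℝ)..h, g z * f (z + u) := fun z => by
    rw [Circle.avg, intervalIntegral.integral_const_mul, intervalIntegral.integral_comp_add_left f z,
      add_zero]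
    ring
  have e2 : ∀ t, Circle.avg h g (t - h) * f t = h⁻¹ * ∫ u in (0 : ℝ)..h, g (t - u) * f t :=
    fun t => by
    rw [Circle.avg, intervalIntegral.integral_mul_const, intervalIntegral.integral_comp_sub_left g t,
      sub_zero, sub_add_cancel]
    ring
  simp only [e1, e2]
  rw [intervalIntegral.integral_const_mul, intervalIntegral.integral_const_mul]
  congr 1
  have hM : 0 ≤ M := le_trans (abs_nonneg _) (hf.bound 0)
  have hN : 0 ≤ N := le_trans (abs_nonneg _) (hg.bound 0)
  have hb : ∀ x y : ℝ, ‖g x * f y‖ ≤ N * M := fun x y => by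
    rw [Real.norm_eq_abs, abs_mul]
    exact mul_le_mul (hg.bound x) (hf.bound y) (abs_nonneg _) hN
  rw [intervalIntegral_intervalIntegral_swap (F := fun z u => g z * f (z + u)),
    intervalIntegral_intervalIntegral_swap (F := fun t u => g (t - u) * f t)]
  · refine intervalIntegral.integral_congr fun u _ => ?_
    have hp : Function.Periodic (fun t => g (t - u) * f t) 1 := fun t => by
      show g (t + 1 - u) * f (t + 1) = g (t - u) * f t
      rw [show t + 1 - u = t - u + 1 by ring, hg.per, hf.per]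
    show ∫ z in (0 : ℝ)..1, g z * f (z + u) = ∫ t in (0 : ℝ)..1, g (t - u) * f t
    have := intervalIntegral.integral_comp_add_right (a := (0 : ℝ)) (b := 1)
      (fun t => g (t - u) * f t) u
    simp only [add_sub_cancel_right, zero_add] at this
    rw [this, show (1 : ℝ) + u = u + 1 by ring, hp.intervalIntegral_add_eq u 0, zero_add]
  all_goals
    rw [uIoc_of_le zero_le_one, uIoc_of_le hh]
    refine IntegrableOn.of_bound ?_ ?_ (N * M) (Eventually.of_forall fun x => hb _ _)
    · rw [Measure.volume_eq_prod, Measure.prod_prod]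
      exact ENNReal.mul_lt_top measure_Ioc_lt_top measure_Ioc_lt_top
    · exact (Measurable.mul (hg.meas.comp (by fun_prop)) (hf.meas.comp (by fun_prop))).aestronglyMeasurable

/-- Averages of a test pair are a test pair. -/
theorem avg_sq_add_sq {c σ : ℝ → ℝ} (hc : Continuous c) (hσ : Continuous σ)
    (hcs : ∀ z, c z ^ 2 + σ z ^ 2 ≤ 1) {h : ℝ} (hh : 0 < h) (z : ℝ) :
    avg h c z ^ 2 + avg h σ z ^ 2 ≤ 1 := by
  set α := Circle.avg h c z
  set β := Circle.avg h σ z
  have hle : ∀ t, c t * α + σ t * β ≤ Real.sqrt (α ^ 2 + β ^ 2) := fun t => by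
    refine Real.le_sqrt_of_sq_le ?_
    nlinarith [sq_nonneg (c t * β - σ t * α), hcs t, sq_nonneg α, sq_nonneg β,
      mul_nonneg (sub_nonneg.2 (hcs t)) (add_nonneg (sq_nonneg α) (sq_nonneg β))]
  have hi : ∀ t : ℝ → ℝ, Continuous t → IntervalIntegrable t volume z (z + h) :=
    fun t ht => ht.intervalIntegrable _ _
  have h1 := integral_mono_on (show z ≤ z + h by linarith) (hi _ (by fun_prop))
    intervalIntegrable_const fun t _ => hle t
  rw [intervalIntegral.integral_add (hi _ (by fun_prop)) (hi _ (by fun_prop)),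
    intervalIntegral.integral_mul_const, intervalIntegral.integral_mul_const,
    intervalIntegral.integral_const, add_sub_cancel_left, smul_eq_mul] at h1
  have hα : ∫ t in z..z + h, c t = h * α := by
    simp only [α, Circle.avg, ← mul_assoc, mul_inv_cancel₀ hh.ne', one_mul]
  have hβ : ∫ t in z..z + h, σ t = h * β := by
    simp only [β, Circle.avg, ← mul_assoc, mul_inv_cancel₀ hh.ne', one_mul]
  rw [hα, hβ] at h1
  have h2 : α ^ 2 + β ^ 2 ≤ Real.sqrt (α ^ 2 + β ^ 2) :=
    le_of_mul_le_mul_left (by linarith) hh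
  have h3 := Real.sq_sqrt (add_nonneg (sq_nonneg α) (sq_nonneg β))
  nlinarith [Real.sqrt_nonneg (α ^ 2 + β ^ 2)]

/-- The difference quotient. -/
def diffQ (h : ℝ) (f : ℝ → ℝ) (z : ℝ) : ℝ := h⁻¹ * (f (z + h) - f z)

theorem BddPer.diffQ {f : ℝ → ℝ} {M h : ℝ} (hf : BddPer f M) (hh : 0 < h) :
    BddPer (diffQ h f) (h⁻¹ * (2 * M)) := by
  refine ⟨((hf.meas.comp (measurable_id.add_const h)).sub hf.meas).const_mul h⁻¹,
    fun z => ?_, fun z => ?_⟩
  · simp only [Circle.diffQ, show z + 1 + h = z + h + 1 by ring, hf.per _]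
  · rw [Circle.diffQ, abs_mul, abs_of_pos (inv_pos.2 hh)]
    gcongr
    linarith [abs_sub (f (z + h)) (f z), hf.bound (z + h), hf.bound z]

theorem BddPer.of_continuous {f : ℝ → ℝ} (hf : Continuous f) (hp : Function.Periodic f 1) :
    ∃ M, BddPer f M := by
  obtain ⟨M, hM⟩ := isBounded_iff_forall_norm_le.1 (hp.isBounded_of_continuous one_ne_zero hf)
  exact ⟨M, hf.measurable, hp, fun z => by simpa using hM _ ⟨z, rfl⟩⟩

/-- The smoothed inequality. -/
theorem LinBound.smooth {A Λ : ℝ → ℝ} {P M N h : ℝ} (hlin : LinBound A Λ P) (hA : BddPer A M)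
    (hΛ : BddPer Λ N) (hh : 0 < h) {c σ : ℝ → ℝ} (hc : Continuous c)
    (hcp : Function.Periodic c 1) (hσ : Continuous σ) (hσp : Function.Periodic σ 1)
    (hc0 : ∀ z, 0 ≤ c z) (hcs : ∀ z, c z ^ 2 + σ z ^ 2 ≤ 1) :
    (∫ z in (0 : ℝ)..1, c z * avg h (avg h Λ) z) -
      ∫ z in (0 : ℝ)..1, σ z * (h⁻¹ * (avg h A (z + h) - avg h A z)) ≤ P := by
  -- backward averages
  set T : (ℝ → ℝ) → ℝ → ℝ := fun g z => Circle.avg h g (z - h) with hT
  have hTc : ∀ g : ℝ → ℝ, Continuous g → Continuous (T g) := fun g hg =>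
    (continuous_avg (fun a b => hg.intervalIntegrable a b) h).comp (by fun_prop)
  have hTp : ∀ g : ℝ → ℝ, Function.Periodic g 1 → Function.Periodic (T g) 1 := fun g hg z => by
    simp only [hT, show z + 1 - h = z - h + 1 by ring, periodic_avg hg h _]
  have hT0 : ∀ g : ℝ → ℝ, Continuous g → (∀ z, 0 ≤ g z) → ∀ z, 0 ≤ T g z := fun g hg hg0 z =>
    mul_nonneg (inv_nonneg.2 hh.le) (integral_nonneg (by linarith) fun t _ => hg0 t)
  have hTs : ∀ g k : ℝ → ℝ, Continuous g → Continuous k → (∀ z, g z ^ 2 + k z ^ 2 ≤ 1) →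
      ∀ z, T g z ^ 2 + T k z ^ 2 ≤ 1 := fun g k hg hk hgk z => avg_sq_add_sq hg hk hgk hh _
  -- one averaging
  have one : ∀ c σ : ℝ → ℝ, Continuous c → Function.Periodic c 1 → Continuous σ →
      Function.Periodic σ 1 → (∀ z, 0 ≤ c z) → (∀ z, c z ^ 2 + σ z ^ 2 ≤ 1) →
        (∫ z in (0 : ℝ)..1, c z * Circle.avg h Λ z) -
          ∫ z in (0 : ℝ)..1, σ z * Circle.diffQ h A z ≤ P := by
    intro c σ hc hcp hσ hσp hc0 hcs
    have hd : ∀ z, deriv (T σ) z = h⁻¹ * (σ z - σ (z - h)) := fun z => by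
      rw [(show HasDerivAt (T σ) (h⁻¹ * (σ (z - h + h) - σ (z - h))) z from
        (hasDerivAt_avg hσ h (z - h)).comp_sub_const z h).deriv, sub_add_cancel]
    have key := hlin (T c) (T σ) (hTc c hc) (hTp c hcp)
      ((contDiff_avg hσ h).comp (contDiff_id.sub contDiff_const)) (hTp σ hσp) (hT0 c hc hc0)
      (hTs c σ hc hσ hcs)
    obtain ⟨_, hcB⟩ := BddPer.of_continuous hc hcp
    obtain ⟨K, hσB⟩ := BddPer.of_continuous hσ hσp
    rw [← integral_mul_avg hcB hΛ hh.le] at key
    have hi : ∀ u : ℝ, IntervalIntegrable (fun z => σ (z + u) * A z) volume 0 1 := fun u =>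
      (hA.intervalIntegrable 0 1).continuousOn_mul (hσ.comp (by fun_prop)).continuousOn
    have e : ∫ z in (0 : ℝ)..1, deriv (T σ) z * A z =
        -∫ z in (0 : ℝ)..1, σ z * Circle.diffQ h A z := by
      have hshift : ∫ z in (0 : ℝ)..1, σ (z - h) * A z = ∫ z in (0 : ℝ)..1, σ z * A (z + h) := by
        have hp : Function.Periodic (fun t => σ (t - h) * A t) 1 := fun t => by
          show σ (t + 1 - h) * A (t + 1) = σ (t - h) * A t
          rw [show t + 1 - h = t - h + 1 by ring, hσp, hA.per]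
        have := intervalIntegral.integral_comp_add_right (a := (0 : ℝ)) (b := 1)
          (fun t => σ (t - h) * A t) h
        simp only [add_sub_cancel_right, zero_add] at this
        rw [this, show (1 : ℝ) + h = h + 1 by ring, hp.intervalIntegral_add_eq h 0, zero_add]
      have i1 := ((hA.comp_add h).intervalIntegrable 0 1).continuousOn_mul hσ.continuousOn
      have i2 := hi 0
      have i3 := hi (-h)
      simp only [add_zero, ← sub_eq_add_neg] at i2 i3
      simp only [hd, Circle.diffQ, mul_sub, sub_mul, mul_assoc, mul_left_comm (σ _) h⁻¹]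
      rw [intervalIntegral.integral_sub (i2.const_mul _) (i3.const_mul _),
        intervalIntegral.integral_sub (i1.const_mul _) (i2.const_mul _)]
      simp only [intervalIntegral.integral_const_mul, hshift]
      ring
    rw [e] at key
    linarith
  have key := one (T c) (T σ) (hTc c hc) (hTp c hcp) (hTc σ hσ) (hTp σ hσp) (hT0 c hc hc0)
    (hTs c σ hc hσ hcs)
  obtain ⟨_, hcB⟩ := BddPer.of_continuous hc hcp
  obtain ⟨_, hσB⟩ := BddPer.of_continuous hσ hσp
  rw [← integral_mul_avg hcB (hΛ.avg hh) hh.le, ← integral_mul_avg hσB (hA.diffQ hh) hh.le] at key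
  refine le_trans (le_of_eq ?_) key
  congr 1
  refine intervalIntegral.integral_congr fun z _ => ?_
  congr 1
  simp only [Circle.avg, Circle.diffQ, intervalIntegral.integral_const_mul]
  rw [intervalIntegral.integral_sub ((hA.comp_add h).intervalIntegrable _ _)
    (hA.intervalIntegrable _ _), intervalIntegral.integral_comp_add_right A h]
  ring

/-- The `C¹` approximations. -/
def smoothed (h : ℝ) (f : ℝ → ℝ) : ℝ → ℝ := avg h (avg h f)

theorem hasDerivAt_smoothed {f : ℝ → ℝ} {M : ℝ} (hf : BddPer f M) (h z : ℝ) :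
    HasDerivAt (smoothed h f) (h⁻¹ * (avg h f (z + h) - avg h f z)) z :=
  hasDerivAt_avg (continuous_avg hf.intervalIntegrable h) h z

theorem continuous_deriv_smoothed {f : ℝ → ℝ} {M : ℝ} (hf : BddPer f M) (h : ℝ) :
    Continuous fun z => h⁻¹ * (avg h f (z + h) - avg h f z) := by
  have := continuous_avg hf.intervalIntegrable h
  fun_prop

/-- At a Lebesgue point both averages tend to the value. -/
theorem tendsto_smoothed_of_hasDerivAt {f : ℝ → ℝ} {M : ℝ} (hf : BddPer f M) {z : ℝ}
    (hz : HasDerivAt (fun y => ∫ t in (0 : ℝ)..y, f t) (f z) z) :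
    Tendsto (fun h => smoothed h f z) (𝓝[>] 0) (𝓝 (f z)) := by
  rw [Metric.tendsto_nhdsWithin_nhds]
  intro e he
  obtain ⟨d, hd, hF⟩ := Metric.eventually_nhds_iff.1
    ((hasDerivAt_iff_isLittleO.1 hz).bound (show (0 : ℝ) < e / 8 by linarith))
  refine ⟨d / 3, by linarith, fun h (hh : 0 < h) hhd => ?_⟩
  rw [Real.dist_eq, sub_zero, abs_of_pos hh] at hhd
  have hall : ∀ t ∈ Icc z (z + h), avg h f t ∈ Icc (f z - e / 2) (f z + e / 2) := by
    intro t ht
    have b1 := hF (y := t) (by rw [Real.dist_eq, abs_lt]; exact ⟨by linarith [ht.1], by linarith [ht.2]⟩)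
    have b2 := hF (y := t + h)
      (by rw [Real.dist_eq, abs_lt]; exact ⟨by linarith [ht.1], by linarith [ht.2]⟩)
    simp only [smul_eq_mul, Real.norm_eq_abs] at b1 b2
    rw [abs_of_nonneg (show 0 ≤ t - z by linarith [ht.1])] at b1
    rw [abs_of_nonneg (show 0 ≤ t + h - z by linarith [ht.1])] at b2
    obtain ⟨b1a, b1b⟩ := abs_le.1 b1
    obtain ⟨b2a, b2b⟩ := abs_le.1 b2
    have m1 : e / 8 * (t - z) ≤ e / 8 * h :=
      mul_le_mul_of_nonneg_left (by linarith [ht.2]) (by linarith)
    have m2 : e / 8 * (t + h - z) ≤ e / 8 * (2 * h) :=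
      mul_le_mul_of_nonneg_left (by linarith [ht.2]) (by linarith)
    rw [avg_eq_sub hf.intervalIntegrable, inv_mul_eq_div, mem_Icc, le_div_iff₀ hh, div_le_iff₀ hh]
    exact ⟨by nlinarith, by nlinarith⟩
  have hi := (continuous_avg hf.intervalIntegrable h).intervalIntegrable (μ := volume) z (z + h)
  have h1 := integral_mono_on (show z ≤ z + h by linarith) intervalIntegrable_const hi
    fun t ht => (hall t ht).1
  have h2 := integral_mono_on (show z ≤ z + h by linarith) hi intervalIntegrable_const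
    fun t ht => (hall t ht).2
  simp only [intervalIntegral.integral_const, add_sub_cancel_left, smul_eq_mul] at h1 h2
  rw [Real.dist_eq]
  have h3 : smoothed h f z ∈ Icc (f z - e / 2) (f z + e / 2) := by
    rw [smoothed, avg, inv_mul_eq_div, mem_Icc, le_div_iff₀ hh, div_le_iff₀ hh]
    exact ⟨by linarith, by linarith⟩
  exact abs_lt.2 ⟨by linarith [h3.1], by linarith [h3.2]⟩

theorem ae_tendsto_smoothed {f : ℝ → ℝ} {M : ℝ} (hf : BddPer f M) :
    ∀ᵐ z, Tendsto (fun h => smoothed h f z) (𝓝[>] 0) (𝓝 (f z)) := by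
  have hloc : LocallyIntegrable f volume := by
    refine (locallyIntegrable_const M).mono hf.meas.aestronglyMeasurable
      (Eventually.of_forall fun z => ?_)
    simpa using (hf.bound z).trans (le_abs_self M)
  filter_upwards [LocallyIntegrable.ae_hasDerivAt_integral hloc] with z hz
  exact tendsto_smoothed_of_hasDerivAt hf (hz 0)

end Vale.Agent.P232.Rigid.Circle
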