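import Vale.Agent.P232.Rigid.Circle.Side

/-!
# P232 rigidity: the transverse marginals of a tube
-/

open MeasureTheory Set Filter intervalIntegral
open scoped Topology Interval NNReal Real

noncomputable section

namespace Vale.Agent.P232.Rigid.Circle

theorem shapeLen_two (x : ℝ) : shapeLen 2 x = if 0 < x then 2 else 0 := by simp [shapeLen]

theorem shapePerimeter_two (V : ℝ) : shapePerimeter 2 V = 2 * Real.sqrt (π * V) := by
  simp [shapePerimeter]

theorem shapeMarginal_two (R t : ℝ) :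
    shapeMarginal 2 R t = 2 * Real.sqrt (max 0 (R ^ 2 - intDist t ^ 2)) := by simp [shapeMarginal]

theorem shapeRadius_two (V : ℝ) : shapeRadius 2 V = Real.sqrt (V / π) := by simp [shapeRadius]

/-- The quarter circle. -/
theorem integral_sqrt_quarter : ∫ x in (0 : ℝ)..1, Real.sqrt (1 - x ^ 2) = π / 4 := by
  have hc : Continuous fun x : ℝ => Real.sqrt (1 - x ^ 2) := by fun_prop
  have h := integral_sqrt_one_sub_sq
  rw [← integral_add_adjacent_intervals (b := (0 : ℝ)) (hc.intervalIntegrable _ _)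
    (hc.intervalIntegrable _ _)] at h
  have e : ∫ x in (-1 : ℝ)..0, Real.sqrt (1 - x ^ 2) = ∫ x in (0 : ℝ)..1, Real.sqrt (1 - x ^ 2) := by
    have := intervalIntegral.integral_comp_neg (a := (0 : ℝ)) (b := 1)
      (fun x => Real.sqrt (1 - x ^ 2))
    simpa using this.symm
  rw [e] at h
  linarith

theorem tube_profile {V : ℝ} (hV : 0 < V) (hP : shapePerimeter 2 V = candidate V) {A : ℝ → ℝ}
    (h : SideData 2 V A) :
    ∃ c : ℝ, ∀ᵐ t : ℝ, A t = shapeMarginal 2 (shapeRadius 2 V) (t - c) := by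
  set P := candidate V with hPdef
  have hm : Marg A (fun t => shapeLen 2 (A t)) P := marg_of_side h
  have hPv : P = 2 * Real.sqrt (π * V) := by rw [← hP, shapePerimeter_two]
  have hP2 : P ≤ 2 := min_le_right _ _
  obtain ⟨a, b, hR⟩ := exists_essRange hm.hA
  obtain ⟨ha0, haV, hVb, -⟩ := hR.bounds h
  have hi : IntervalIntegrable (fun t => shapeLen 2 (A t)) volume 0 1 :=
    hm.hΛ.intervalIntegrable 0 1
  -- some slices are empty
  have ha : a = 0 := by
    by_contra hne
    refine not_const h hV ?_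
    have h2 : ∫ _ in (0 : ℝ)..1, (2 : ℝ) ≤ ∫ t in (0 : ℝ)..1, shapeLen 2 (A t) :=
      integral_mono_ae zero_le_one intervalIntegrable_const hi (hR.mem.mono fun z hz => by
        simp [shapeLen_two, ((lt_of_le_of_ne ha0 (Ne.symm hne)).trans_le hz.1)])
    simp only [intervalIntegral.integral_const, sub_zero, one_smul] at h2
    exact hP2.trans h2
  subst ha
  have hb : 0 < b := hV.trans_le hVb
  set c : ℝ → ℝ := fun y => max 0 (min 1 (y / b)) with hcdef
  set s : ℝ → ℝ := fun y => Real.sqrt (1 - c y ^ 2) with hsdef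
  have hc : Continuous c := by fun_prop
  have hc0 : ∀ y, 0 ≤ c y := fun y => le_max_left _ _
  have hc1 : ∀ y, c y ≤ 1 := fun y => max_le zero_le_one (min_le_left _ _)
  have hceq : ∀ y ∈ Icc 0 b, c y = y / b := fun y hy => by
    simp [c, (div_le_one hb).2 hy.2, div_nonneg hy.1 hb.le]
  have hcs : ∀ y, c y ^ 2 + s y ^ 2 ≤ 1 := fun y => by
    have : 0 ≤ 1 - c y ^ 2 := sub_nonneg.2 (pow_le_one₀ (hc0 y) (hc1 y))
    simp [s, Real.sq_sqrt this]
  have hprod : ∀ y, 0 ≤ y → c y * shapeLen 2 y = 2 * c y := fun y hy => by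
    rcases hy.eq_or_lt with rfl | hy
    · simp [c]
    · simp [shapeLen_two, hy, mul_comm]
  have hI : ∫ z in (0 : ℝ)..1, c (A z) * shapeLen 2 (A z) = 2 / b * V := by
    rw [← h.mass, ← intervalIntegral.integral_const_mul]
    refine intervalIntegral.integral_congr_ae (hR.mem.mono fun z hz _ => ?_)
    rw [hprod _ hz.1, hceq _ hz]; ring
  have hS : ∫ y in (0 : ℝ)..b, s y = b * (π / 4) := by
    have e : ∫ y in (0 : ℝ)..b, s y = ∫ y in (0 : ℝ)..b, Real.sqrt (1 - (y / b) ^ 2) := by
      refine intervalIntegral.integral_congr fun y hy => ?_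
      rw [uIcc_of_le hb.le] at hy
      simp only [s, hceq y hy]
    rw [e, intervalIntegral.integral_comp_div (fun y => Real.sqrt (1 - y ^ 2)) hb.ne', zero_div,
      div_self hb.ne', smul_eq_mul, integral_sqrt_quarter]
  have key := hm.valueRange hR hc (by fun_prop) hc0 (fun y => Real.sqrt_nonneg _) hcs
  rw [hI, hS] at key
  set R := shapeRadius 2 V with hRdef
  rw [shapeRadius_two] at hRdef
  have hR0 : 0 < R := hRdef ▸ Real.sqrt_pos.2 (div_pos hV Real.pi_pos)
  have hVR : V = π * R ^ 2 := by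
    rw [hRdef, Real.sq_sqrt (div_nonneg hV.le Real.pi_pos.le)]; field_simp
  have hPR : P = 2 * (π * R) := by
    rw [hPv, hVR, show π * (π * R ^ 2) = (π * R) ^ 2 by ring, Real.sqrt_sq (by positivity)]
  have hb2 : b = 2 * R := by
    have e : 2 / b * V + 2 * (b * (π / 4)) - P = π / (2 * b) * (b - 2 * R) ^ 2 := by
      rw [hPR, hVR]; field_simp; ring
    have h1 : π / (2 * b) * (b - 2 * R) ^ 2 ≤ 0 := by linarith
    have h2 : (b - 2 * R) ^ 2 = 0 :=
      le_antisymm (by nlinarith [show 0 < π / (2 * b) by positivity]) (sq_nonneg _)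
    linarith [pow_eq_zero_iff two_ne_zero |>.1 h2]
  have hex : Exact A (fun t => shapeLen 2 (A t)) P 0 b c s (qExt b c)
      (fun y => 2 * c y * s y) :=
    { marg := hm, range := hR, hc := hc, hs := by fun_prop, c0 := hc0,
      s0 := fun y => Real.sqrt_nonneg _, cs := hcs, hF := by fun_prop
      prod := Eventually.of_forall fun z => by
        rw [mul_right_comm, hprod _ (h.mem z).1]
      hq := continuous_qExt hc, q_eq := fun y hy => qExt_eq hy
      value := by
        rw [hI, hS, hPR, hVR, hb2]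
        refine le_of_eq ?_
        field_simp
        ring }
  have hcpos : ∀ y ∈ Ioc 0 b, 0 < c y := fun y hy => by
    rw [hceq y ⟨hy.1.le, hy.2⟩]; exact div_pos hy.1 hb
  obtain ⟨Y, hY, hYp, hAY, z₀, hz₀⟩ := hex.exists_profile hb hcpos
  have hR12 : R ≤ 1 / 2 := by
    have h1 : π * R ≤ 1 := by linarith [hPR ▸ hP2]
    nlinarith [Real.pi_gt_three]
  -- comparison
  have hcmp : ∀ z, b ^ 2 - Y z ^ 2 ≤ (2 * |z - z₀|) ^ 2 := by
    intro z
    have hlim : Tendsto (fun ρ : ℝ => (ρ + 2 * |z - z₀|) ^ 2) (𝓝[>] 0)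
        (𝓝 ((2 * |z - z₀|) ^ 2)) := by
      refine Tendsto.mono_left ?_ nhdsWithin_le_nhds
      exact (show Continuous fun ρ : ℝ => (ρ + 2 * |z - z₀|) ^ 2 by fun_prop).tendsto' _ _ (by simp)
    refine ge_of_tendsto hlim ?_
    filter_upwards [self_mem_nhdsWithin] with ρ (hρ : 0 < ρ)
    set w := fun y : ℝ => Real.sqrt (b ^ 2 + ρ ^ 2 - y ^ 2) / 2
    set w' := fun y : ℝ => -(2 * y) / (2 * Real.sqrt (b ^ 2 + ρ ^ 2 - y ^ 2)) / 2
    have hpos : ∀ y ∈ Icc 0 b, 0 < b ^ 2 + ρ ^ 2 - y ^ 2 := fun y hy => by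
      nlinarith [pow_le_pow_left₀ hy.1 hy.2 2]
    have hw : ∀ y ∈ Ioc 0 b, HasDerivAt w (w' y) y := fun y hy => by
      have h1 := (hasDerivAt_pow 2 y).const_sub (b ^ 2 + ρ ^ 2)
      simp only [Nat.cast_ofNat, Nat.add_one_sub_one, pow_one] at h1
      exact (h1.sqrt (hpos y ⟨hy.1.le, hy.2⟩).ne').div_const 2
    have := hY.compare_abs hb hc hcpos hex.hF (w := w) (w' := w') (by fun_prop) hw
      (fun y hy => by
        simp only [w]
        gcongr
        nlinarith [hy.1]) (k := 1) zero_le_one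
      (fun y hy => by
        have hs1 : s y = Real.sqrt (1 - (y / b) ^ 2) := by simp only [s, hceq y ⟨hy.1.le, hy.2⟩]
        set S := Real.sqrt (b ^ 2 + ρ ^ 2 - y ^ 2)
        have hS0 : 0 < S := Real.sqrt_pos.2 (hpos y ⟨hy.1.le, hy.2⟩)
        have hle : b * s y ≤ S := by
          rw [hs1, ← Real.sqrt_sq hb.le, ← Real.sqrt_mul (sq_nonneg b), Real.sqrt_sq hb.le]
          refine Real.sqrt_le_sqrt ?_
          field_simp
          nlinarith
        have e : |w' y| = y / (2 * S) := by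
          simp only [w']
          rw [abs_div, abs_div, abs_neg, abs_of_pos (mul_pos two_pos hy.1),
            abs_of_pos (mul_pos two_pos hS0)]
          norm_num
          field_simp
        rw [e, hceq y ⟨hy.1.le, hy.2⟩, one_mul]
        calc 2 * (y / b) * s y * (y / (2 * S)) = (y / b) ^ 2 * (b * s y / S) := by field_simp
          _ ≤ (y / b) ^ 2 * 1 :=
              mul_le_mul_of_nonneg_left ((div_le_one hS0).2 hle) (sq_nonneg _)
          _ = _ := mul_one _) (z₀ := z₀) hz₀ z
    simp only [w, add_sub_cancel_left, Real.sqrt_sq hρ.le, one_mul] at this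
    have h2 : Real.sqrt (b ^ 2 + ρ ^ 2 - Y z ^ 2) ≤ ρ + 2 * |z - z₀| := by linarith
    rw [Real.sqrt_le_left (by positivity)] at h2
    linarith [sq_nonneg ρ]
  refine ⟨z₀, ae_eq_of_le hY.cont (B := fun t => shapeMarginal 2 R (t - z₀)) ?_ hYp ?_ hAY ?_ ?_⟩
  · simp only [shapeMarginal_two]
    have := continuous_intDist
    fun_prop
  · intro t
    simp only [shapeMarginal_two, show t + 1 - z₀ = t - z₀ + 1 by ring, intDist_add_one]
  · intro z
    obtain ⟨k, hk⟩ := intDist_sub_le z z₀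
    have h1 := hcmp (z + k)
    have hp : Y (z + k) = Y z := by simpa using hYp.int_mul k z
    rw [hp, hk, hb2] at h1
    have hY0 := (hY.mem z).1
    rw [shapeMarginal_two, show Y z = 2 * (Y z / 2) by ring]
    refine mul_le_mul_of_nonneg_left ?_ zero_le_two
    rw [Real.sqrt_le_left (by linarith)]
    exact max_le (sq_nonneg _) (by nlinarith)
  · rw [h.mass]
    simp only [shapeMarginal_two]
    rw [integral_profile (φ := fun x => 2 * Real.sqrt (max 0 x)) (by fun_prop) hR0.le hR12
      (fun x hx => by simp [max_eq_left hx]) z₀]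
    have e : ∀ t ∈ uIcc (-R) R, 2 * Real.sqrt (max 0 (R ^ 2 - t ^ 2)) =
        2 * R * Real.sqrt (1 - (t / R) ^ 2) := fun t ht => by
      rw [uIcc_of_le (by linarith)] at ht
      rw [max_eq_right (by nlinarith [abs_le.2 ⟨ht.1, ht.2⟩, sq_abs t, abs_nonneg t]),
        mul_assoc, ← Real.sqrt_sq hR0.le, ← Real.sqrt_mul (sq_nonneg R), Real.sqrt_sq hR0.le]
      congr 2
      field_simp
    rw [intervalIntegral.integral_congr e, intervalIntegral.integral_const_mul,
      intervalIntegral.integral_comp_div (fun t => Real.sqrt (1 - t ^ 2)) hR0.ne', neg_div,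
      div_self hR0.ne', integral_sqrt_one_sub_sq, hVR, smul_eq_mul]
    ring

end Vale.Agent.P232.Rigid.Circle
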